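import Mathlib.Data.ZMod.ValMinAbs
import Mathlib.Data.Fin.Tuple.Basic
import Mathlib.Data.Fintype.Pi
import Mathlib.Order.Lattice.Nat
import Mathlib.Data.Real.Basic
import Mathlib.Data.List.OfFn
import Mathlib.Algebra.BigOperators.Group.Finset.Basic

/-! Definitions for the lower bound on the L1 distortion of edit distance (P238). -/

namespace Vale.Agent.P238

/-- One insertion, deletion or substitution. -/
def EditStep (x y : List Bool) : Prop :=
  (∃ u v a, x = u ++ a :: v ∧ y = u ++ v) ∨ (∃ u v a, y = u ++ a :: v ∧ x = u ++ v) ∨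
    ∃ u v a b, x = u ++ a :: v ∧ y = u ++ b :: v

/-- `y` is obtained from `x` by `k` edit steps. -/
def Reach : ℕ → List Bool → List Bool → Prop
  | 0, x, y => x = y
  | k + 1, x, y => ∃ z, EditStep x z ∧ Reach k z y

/-- Edit distance. -/
noncomputable def ED (x y : List Bool) : ℕ := sInf {k | Reach k x y}

/-- Distance of a residue to zero on the cycle. -/
def nrm {Q : ℕ} (v : ZMod Q) : ℕ := v.valMinAbs.natAbs

/-- Leaf identities of a block of level `l`: the child chosen at each level, top first. -/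
abbrev J (N l : ℕ) := Fin l → Fin N

/-- Number of leaf slots in a block of level `l` (`E` repetitions of `N` children). -/
def nSlots (N E l : ℕ) : ℕ := (E * N) ^ l

variable {Q N : ℕ} [NeZero N]

/-- Leaf identity and phase at slot `p` of a level-`l` block: in repetition `e`, child `i` is
translated by `e * a i`. -/
def slot (E : ℕ) (a : Fin N → ZMod Q) : (l : ℕ) → (J N l → ZMod Q) → ℕ → J N l × ZMod Q
  | 0, φ, _ => (Fin.elim0, φ Fin.elim0)
  | l + 1, φ, p =>
    let i : Fin N := ⟨p / nSlots N E l % N, Nat.mod_lt _ (NeZero.pos N)⟩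
    let r := slot E a l
      (fun j => φ (Fin.cons i j) + ((p / (N * nSlots N E l) : ℕ) : ZMod Q) * a i)
      (p % nSlots N E l)
    (Fin.cons i r.1, r.2)

/-- The bin of a phase, out of `q` equal ones. -/
def bin (q : ℕ) [NeZero Q] [NeZero q] (v : ZMod Q) : Fin q :=
  ⟨v.val * q / Q, Nat.div_lt_of_lt_mul (by
    exact Nat.mul_lt_mul_of_pos_right (ZMod.val_lt v) (NeZero.pos q))⟩

/-- The symbol written at slot `p`. -/
def symb (q E : ℕ) [NeZero Q] [NeZero q] (a : Fin N → ZMod Q) (l : ℕ) (φ : J N l → ZMod Q)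
    (p : ℕ) : J N l × Fin q :=
  ((slot E a l φ p).1, bin q (slot E a l φ p).2)

/-- The binary word of `n` coded symbols. -/
def code {Sy : Type*} {m : ℕ} (cd : Sy → Fin m → Bool) (n : ℕ) (u : ℕ → Sy) : List Bool :=
  (List.range n).flatMap fun p => List.ofFn (cd (u p))

/-- `M` is a strictly increasing partial matching of equal symbols of `u` and `v`. -/
def IsMatching {Sy : Type*} (n : ℕ) (u v : ℕ → Sy) (M : Finset (ℕ × ℕ)) : Prop :=
  (∀ z ∈ M, z.1 < n ∧ z.2 < n ∧ u z.1 = v z.2) ∧ ∀ z ∈ M, ∀ w ∈ M, (z.1 < w.1 ↔ z.2 < w.2)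

/-- The translations that shift one block by one repetition, over all blocks of all levels. -/
def gens (a : Fin N → ZMod Q) : (l : ℕ) → List (J N l → ZMod Q)
  | 0 => []
  | l + 1 => (fun j => a (j 0)) :: (List.finRange N).flatMap fun i =>
      (gens a l).map fun g j => if j 0 = i then g (Fin.tail j) else 0

/-- The two properties required of the per-level translations `a`. -/
structure Design (b H S E r : ℕ) (a : Fin N → ZMod Q) : Prop where
  sparse : ∀ h : Fin N → ℤ, h ≠ 0 → (Finset.univ.filter fun i => h i ≠ 0).card ≤ b →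
    (∀ i, (h i).natAbs ≤ H) → Q < S * nrm (∑ i, (h i : ZMod Q) * a i)
  spread : ∀ T : ZMod Q, ∀ e e', e < E → e' < E → e ≠ e' →
    4 * (Finset.univ.filter fun i => nrm (T + ((e : ZMod Q) - (e' : ZMod Q)) * a i) ≤ r).card ≤ N

/-- Total variation of `f` under translation by `g`. -/
def energy {G : Type*} [Fintype G] [Add G] (f : G → ℝ) (g : G) : ℝ :=
  ∑ x, |f (x + g) - f x|

end Vale.Agent.P238
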