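import Mathlib.Analysis.SpecialFunctions.Complex.CircleAddChar
import Mathlib.Analysis.SpecialFunctions.Trigonometric.Bounds
import Mathlib.NumberTheory.LegendreSymbol.AddCharacter
import Mathlib.Data.ZMod.ValMinAbs
import Vale.Agent.P238.Defs

/-!
The analytic part of the P238 lower bound: a Poincaré inequality for translations on `(ZMod Q)^J`,
proved for `0/1`-valued functions by Parseval and extended to real functions by layers.
-/

namespace Vale.Agent.P238

open Finset ComplexConjugate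

section
variable {J : Type*} [Fintype J] {Q : ℕ} [NeZero Q]

/-- The pairing of a frequency and a point. -/
def pair (k g : J → ZMod Q) : ZMod Q := ∑ j, k j * g j

/-- The Fourier multiplier of a difference. -/
noncomputable def mult (θ : ZMod Q) : ℝ := ‖(ZMod.stdAddChar : AddChar (ZMod Q) ℂ) θ - 1‖ ^ 2

lemma norm_psi (θ : ZMod Q) : ‖(ZMod.stdAddChar : AddChar (ZMod Q) ℂ) θ‖ = 1 :=
  Circle.norm_coe _

lemma mult_nonneg (θ : ZMod Q) : 0 ≤ mult θ := sq_nonneg _

lemma mult_eq (θ : ZMod Q) : mult θ = 2 - 2 * ((ZMod.stdAddChar : AddChar (ZMod Q) ℂ) θ).re := by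
  have h : Complex.normSq ((ZMod.stdAddChar : AddChar (ZMod Q) ℂ) θ) = 1 := by
    rw [Complex.normSq_eq_norm_sq, norm_psi]; norm_num
  rw [mult, ← Complex.normSq_eq_norm_sq, Complex.normSq_sub, h]
  simp
  ring

lemma psi_sub_one_ge (θ : ZMod Q) : 4 * (nrm θ : ℝ) / Q ≤ ‖(ZMod.stdAddChar : AddChar (ZMod Q) ℂ) θ - 1‖ := by
  set v := θ.valMinAbs with hv
  have hθ : θ = ((v : ℤ) : ZMod Q) := (ZMod.coe_valMinAbs θ).symm
  have hQ : (0 : ℝ) < Q := by exact_mod_cast Nat.pos_of_ne_zero (NeZero.ne Q)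
  have h2 : v.natAbs ≤ Q / 2 := ZMod.natAbs_valMinAbs_le θ
  have hb : 2 * (v.natAbs : ℝ) ≤ Q := by exact_mod_cast (by omega : 2 * v.natAbs ≤ Q)
  have he : (ZMod.stdAddChar : AddChar (ZMod Q) ℂ) θ = Complex.exp (Complex.I * ((2 * Real.pi * v / Q : ℝ) : ℂ)) := by
    rw [hθ, ZMod.stdAddChar_coe]
    congr 1
    push_cast
    ring
  rw [he, Complex.norm_exp_I_mul_ofReal_sub_one, Real.norm_eq_abs, abs_mul]
  have ha : |2 * Real.pi * (v : ℝ) / Q / 2| = Real.pi * v.natAbs / Q := by
    rw [Nat.cast_natAbs, Int.cast_abs, abs_div, abs_div, abs_mul, abs_mul,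
      abs_of_pos Real.pi_pos, abs_of_pos hQ]
    norm_num
    ring
  have hp : |2 * Real.pi * (v : ℝ) / Q / 2| ≤ Real.pi / 2 := by
    rw [ha, div_le_div_iff₀ hQ two_pos]
    nlinarith [Real.pi_pos]
  have hs := Real.mul_abs_le_abs_sin hp
  rw [ha] at hs
  have : 2 / Real.pi * (Real.pi * v.natAbs / Q) = 2 * v.natAbs / Q := by
    field_simp
  rw [this] at hs
  have e : (4 : ℝ) * (nrm θ : ℝ) / Q = 2 * (2 * v.natAbs / Q) := by
    rw [nrm, ← hv]; ring
  rw [e, abs_two]
  linarith

lemma sum_psi (b : ZMod Q) :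
    ∑ c : ZMod Q, (ZMod.stdAddChar : AddChar (ZMod Q) ℂ) (c * b) = if b = 0 then (Q : ℂ) else 0 := by
  rw [AddChar.sum_mulShift b (ZMod.isPrimitive_stdAddChar Q), ZMod.card]
  split_ifs <;> simp

lemma mult_sum (b : ZMod Q) :
    ∑ c : ZMod Q, mult (b * c) = if b = 0 then 0 else 2 * (Q : ℝ) := by
  have h := congrArg Complex.re (sum_psi b)
  rw [Complex.re_sum] at h
  simp only [mult_eq, Finset.sum_sub_distrib, ← Finset.mul_sum]
  have e : ∀ c : ZMod Q, ((ZMod.stdAddChar : AddChar (ZMod Q) ℂ) (b * c)).re = ((ZMod.stdAddChar : AddChar (ZMod Q) ℂ) (c * b)).re := fun c => by rw [mul_comm]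
  simp only [e, h]
  split_ifs <;> simp <;> ring

lemma orth [DecidableEq J] (x : J → ZMod Q) :
    ∑ k : J → ZMod Q, (ZMod.stdAddChar : AddChar (ZMod Q) ℂ) (pair k x) =
      if x = 0 then (Fintype.card (J → ZMod Q) : ℂ) else 0 := by
  have h : ∀ k : J → ZMod Q, (ZMod.stdAddChar : AddChar (ZMod Q) ℂ) (pair k x) = ∏ j, (ZMod.stdAddChar : AddChar (ZMod Q) ℂ) (k j * x j) := fun k => by
    exact map_prod ((ZMod.stdAddChar : AddChar (ZMod Q) ℂ)).toMonoidHom (fun j => Multiplicative.ofAdd (k j * x j)) univ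
  simp only [h]
  rw [← Fintype.prod_sum (fun j c => (ZMod.stdAddChar : AddChar (ZMod Q) ℂ) (c * x j))]
  simp only [sum_psi]
  by_cases hx : x = 0
  · simp [hx]
  · obtain ⟨j, hj⟩ : ∃ j, x j ≠ 0 := by
      by_contra! hc; exact hx (funext hc)
    rw [if_neg hx]
    exact Finset.prod_eq_zero (mem_univ j) (by simp [hj])

omit [NeZero Q] in
lemma pair_add (k x y : J → ZMod Q) : pair k (x + y) = pair k x + pair k y := by
  simp [pair, mul_add, Finset.sum_add_distrib]

omit [NeZero Q] in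
lemma pair_neg (k x : J → ZMod Q) : pair k (-x) = -pair k x := by
  simp [pair, Finset.sum_neg_distrib]

/-- Fourier transform. -/
noncomputable def four (u : (J → ZMod Q) → ℝ) (k : J → ZMod Q) [DecidableEq J] : ℂ :=
  ∑ x, (u x : ℂ) * (ZMod.stdAddChar : AddChar (ZMod Q) ℂ) (pair k x)

lemma parseval [DecidableEq J] (u : (J → ZMod Q) → ℝ) :
    ∑ k, ‖four u k‖ ^ 2 = (Fintype.card (J → ZMod Q) : ℝ) * ∑ x, u x ^ 2 := by
  have key : ∀ k, ((‖four u k‖ ^ 2 : ℝ) : ℂ) =
      ∑ x, ∑ y, ((u x : ℂ) * u y) * (ZMod.stdAddChar : AddChar (ZMod Q) ℂ) (pair k (x + -y)) := by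
    intro k
    push_cast
    rw [← Complex.mul_conj', four, map_sum, Finset.sum_mul_sum]
    refine Finset.sum_congr rfl fun x _ => Finset.sum_congr rfl fun y _ => ?_
    rw [map_mul, Complex.conj_ofReal, ← AddChar.map_neg_eq_conj, pair_add, pair_neg,
      AddChar.map_add_eq_mul]
    ring
  have h : ((∑ k, ‖four u k‖ ^ 2 : ℝ) : ℂ) =
      (((Fintype.card (J → ZMod Q) : ℝ) * ∑ x, u x ^ 2 : ℝ) : ℂ) := by
    rw [Complex.ofReal_sum]
    simp only [key]
    rw [Finset.sum_comm]
    push_cast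
    rw [Finset.mul_sum]
    refine Finset.sum_congr rfl fun x _ => ?_
    rw [Finset.sum_comm]
    simp only [← Finset.mul_sum, orth]
    rw [Finset.sum_eq_single x]
    · simp; ring
    · intro y _ hy
      rw [if_neg, mul_zero]
      rwa [← sub_eq_add_neg, sub_eq_zero, eq_comm]
    · simp
  exact_mod_cast h

lemma four_diff [DecidableEq J] (u : (J → ZMod Q) → ℝ) (g k : J → ZMod Q) :
    four (fun x => u (x + g) - u x) k = ((ZMod.stdAddChar : AddChar (ZMod Q) ℂ) (-pair k g) - 1) * four u k := by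
  simp only [four, Complex.ofReal_sub, sub_mul, one_mul, Finset.sum_sub_distrib]
  congr 1
  rw [Finset.mul_sum]
  refine Fintype.sum_equiv (Equiv.addRight g) _ _ fun x => ?_
  simp only [Equiv.coe_addRight, pair_add]
  rw [mul_left_comm, ← AddChar.map_add_eq_mul]
  congr 2
  ring

lemma mult_neg (θ : ZMod Q) : mult (-θ) = mult θ := by
  rw [mult_eq, mult_eq, AddChar.map_neg_eq_conj, Complex.conj_re]

lemma energy_bool [DecidableEq J] (h : (J → ZMod Q) → ℝ) (hb : ∀ x, h x = 0 ∨ h x = 1)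
    (g : J → ZMod Q) :
    energy h g = (Fintype.card (J → ZMod Q) : ℝ)⁻¹ * ∑ k, ‖four h k‖ ^ 2 * mult (pair k g) := by
  have he : energy h g = ∑ x, (h (x + g) - h x) ^ 2 := by
    refine Finset.sum_congr rfl fun x _ => ?_
    rcases hb (x + g) with a | a <;> rcases hb x with b | b <;> simp [a, b]
  have hc : (Fintype.card (J → ZMod Q) : ℝ) ≠ 0 := by exact_mod_cast Fintype.card_ne_zero
  have hp := parseval (fun x => h (x + g) - h x)
  simp only [four_diff, norm_mul, mul_pow] at hp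
  rw [he, eq_inv_mul_iff_mul_eq₀ hc, ← hp]
  refine Finset.sum_congr rfl fun k _ => ?_
  rw [← mult_neg (pair k g), mult, mul_comm]

/-- Right side minus left side of the inequality, as a functional of the energy profile. -/
noncomputable def gap [DecidableEq J] (gs : List (J → ZMod Q)) (P R S : ℕ)
    (F : (J → ZMod Q) → ℝ) : ℝ :=
  4 * ((∑ j, ∑ c : ZMod Q, F (Pi.single j c)) / (Q * P) +
      (∑ j, ∑ δ ∈ Finset.Icc 1 R, F (Pi.single j (δ : ZMod Q))) / R +
      (S : ℝ) ^ 2 * (gs.map F).sum) -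
    (∑ τ : ZMod Q, F (fun _ => τ)) / Q

lemma gap_lin [DecidableEq J] (gs : List (J → ZMod Q)) (P R S : ℕ) (t : ℝ)
    (F F' : (J → ZMod Q) → ℝ) :
    gap gs P R S (fun g => F g + t * F' g) = gap gs P R S F + t * gap gs P R S F' := by
  simp only [gap, Finset.sum_add_distrib, ← Finset.mul_sum]
  have : (gs.map fun g => F g + t * F' g).sum = (gs.map F).sum + t * (gs.map F').sum := by
    induction gs with
    | nil => simp
    | cons a l ih => simp [ih]; ring
  rw [this]
  ring

lemma gap_zero [DecidableEq J] (gs : List (J → ZMod Q)) (P R S : ℕ) :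
    gap gs P R S (fun _ => 0) = 0 := by
  simp [gap]

lemma gap_sum [DecidableEq J] (gs : List (J → ZMod Q)) (P R S : ℕ) {ι : Type*} (s : Finset ι)
    (w : ι → ℝ) (F : ι → (J → ZMod Q) → ℝ) :
    gap gs P R S (fun g => ∑ i ∈ s, w i * F i g) = ∑ i ∈ s, w i * gap gs P R S (F i) := by
  classical
  induction s using Finset.induction_on with
  | empty => simp [gap_zero]
  | insert a s ha ih =>
    simp only [Finset.sum_insert ha]
    rw [← ih, add_comm (w a * gap gs P R S (F a)), ← gap_lin]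
    congr 1; funext g; ring

lemma gap_layers [DecidableEq J] (gs : List (J → ZMod Q)) (P R S : ℕ)
    (hbool : ∀ h : (J → ZMod Q) → ℝ, (∀ x, h x = 0 ∨ h x = 1) → 0 ≤ gap gs P R S (energy h))
    (f : (J → ZMod Q) → ℝ) : 0 ≤ gap gs P R S (energy f) := by
  induction hn : (univ.image f).card using Nat.strong_induction_on generalizing f with
  | _ n ih =>
  subst hn
  set V := univ.image f with hV
  have hne : V.Nonempty := univ_nonempty.image f
  set m0 := V.min' hne
  by_cases hrest : (V.erase m0).Nonempty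
  · set m1 := (V.erase m0).min' hrest
    have hm1 := Finset.min'_mem _ hrest
    have h01 : m0 < m1 :=
      lt_of_le_of_ne (V.min'_le _ (Finset.mem_of_mem_erase hm1)) (Finset.ne_of_mem_erase hm1).symm
    have hmem : ∀ x, f x ∈ V := fun x => Finset.mem_image_of_mem f (mem_univ x)
    have hval : ∀ x, f x = m0 ∨ m1 ≤ f x := by
      intro x
      by_cases hx : f x = m0
      · exact Or.inl hx
      · exact Or.inr (Finset.min'_le _ _ (Finset.mem_erase.mpr ⟨hx, hmem x⟩))
    let h : (J → ZMod Q) → ℝ := fun x => if m1 ≤ f x then 1 else 0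
    let f' : (J → ZMod Q) → ℝ := fun x => max (f x) m1
    have he : ∀ g, energy f g = energy f' g + (m1 - m0) * energy h g := by
      intro g
      simp only [energy, Finset.mul_sum, ← Finset.sum_add_distrib]
      refine Finset.sum_congr rfl fun x _ => ?_
      rcases hval (x + g) with a | a <;> rcases hval x with b | b
      · simp [h, f', a, b]
      · simp [h, f', a, b, max_eq_right h01.le, not_le.mpr h01]
        rw [abs_sub_comm, abs_of_nonneg (by linarith), abs_sub_comm m1,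
          abs_of_nonneg (by linarith)]
        ring
      · simp [h, f', a, b, max_eq_right h01.le, not_le.mpr h01]
        rw [abs_of_nonneg (by linarith), abs_of_nonneg (by linarith)]
        ring
      · simp [h, f', a, b]
    have hlt : (univ.image f').card < V.card := by
      refine lt_of_le_of_lt (Finset.card_le_card ?_) (Finset.card_erase_lt_of_mem (V.min'_mem hne))
      intro v hv
      obtain ⟨x, -, rfl⟩ := Finset.mem_image.mp hv
      rcases hval x with a | a
      · simp only [f', a, max_eq_right h01.le]; exact hm1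
      · simp only [f', max_eq_left a]
        exact Finset.mem_erase.mpr ⟨ne_of_gt (lt_of_lt_of_le h01 a), hmem x⟩
    rw [show energy f = fun g => energy f' g + (m1 - m0) * energy h g from funext he, gap_lin]
    have h1 := ih _ hlt f' rfl
    have h2 := hbool h (fun x => by by_cases hx : m1 ≤ f x <;> simp [h, hx])
    nlinarith
  · have hc : ∀ x, f x = m0 := fun x => by
      by_contra hx
      exact hrest ⟨f x, Finset.mem_erase.mpr ⟨hx, Finset.mem_image_of_mem f (mem_univ x)⟩⟩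
    have : energy f = fun _ => (0 : ℝ) := funext fun g => by simp [energy, hc]
    rw [this, gap_zero]

lemma mult_avg (θ : ZMod Q) (R K : ℕ) (hR : Q ≤ R * K) (hK : K < nrm θ) :
    1 ≤ (∑ δ ∈ Finset.Icc 1 R, mult (θ * (δ : ZMod Q))) / R := by
  have hQ : (0 : ℝ) < Q := by exact_mod_cast Nat.pos_of_ne_zero (NeZero.ne Q)
  have hR0 : 0 < R := Nat.pos_of_ne_zero fun h => by
    subst h; simp at hR; exact NeZero.ne Q hR
  have hz : ∀ δ : ℕ, (ZMod.stdAddChar : AddChar (ZMod Q) ℂ) (θ * (δ : ZMod Q)) = (ZMod.stdAddChar : AddChar (ZMod Q) ℂ) θ ^ δ := fun δ => by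
    rw [← AddChar.map_nsmul_eq_pow, nsmul_eq_mul, mul_comm]
  have hgeo : ∀ n : ℕ, ((ZMod.stdAddChar : AddChar (ZMod Q) ℂ) θ - 1) * ∑ δ ∈ Finset.Icc 1 n, (ZMod.stdAddChar : AddChar (ZMod Q) ℂ) θ ^ δ = (ZMod.stdAddChar : AddChar (ZMod Q) ℂ) θ ^ (n + 1) - (ZMod.stdAddChar : AddChar (ZMod Q) ℂ) θ := by
    intro n
    induction n with
    | zero => simp
    | succ n ih => rw [Finset.sum_Icc_succ_top (by omega), mul_add, ih]; ring
  set T := ∑ δ ∈ Finset.Icc 1 R, (ZMod.stdAddChar : AddChar (ZMod Q) ℂ) θ ^ δ with hT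
  have hb : ‖(ZMod.stdAddChar : AddChar (ZMod Q) ℂ) θ - 1‖ * ‖T‖ ≤ 2 := by
    rw [← norm_mul, hgeo]
    refine (norm_sub_le _ _).trans ?_
    rw [norm_pow, norm_psi]
    norm_num
  have hlow : 4 / (R : ℝ) ≤ ‖(ZMod.stdAddChar : AddChar (ZMod Q) ℂ) θ - 1‖ := by
    refine le_trans ?_ (psi_sub_one_ge θ)
    rw [div_le_div_iff₀ (by exact_mod_cast hR0) hQ]
    have : ((Q : ℝ)) ≤ (R : ℝ) * K := by exact_mod_cast hR
    have hk : (K : ℝ) ≤ (nrm θ : ℝ) := by exact_mod_cast hK.le
    nlinarith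
  have hRr : (0 : ℝ) < R := by exact_mod_cast hR0
  have hT2 : ‖T‖ ≤ (R : ℝ) / 2 := by
    have := mul_le_mul_of_nonneg_right hlow (norm_nonneg T)
    rw [div_mul_eq_mul_div, div_le_iff₀ hRr] at this
    nlinarith
  have hre : T.re ≤ (R : ℝ) / 2 := le_trans (Complex.re_le_norm _) hT2
  rw [le_div_iff₀ hRr, one_mul]
  simp only [mult_eq, hz, Finset.sum_sub_distrib, ← Finset.mul_sum, ← Complex.re_sum, ← hT]
  simp
  linarith

lemma gap_freq [DecidableEq J] (gs : List (J → ZMod Q)) (P K R S : ℕ) (hP : 0 < P)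
    (hR : Q ≤ R * K)
    (key : ∀ kk : J → ZMod Q, (∑ j, kk j) ≠ 0 → P ≤ (univ.filter fun j => kk j ≠ 0).card ∨
      (∃ j, K < nrm (kk j)) ∨ ∃ g ∈ gs, Q < S * nrm (∑ j, kk j * g j))
    (k : J → ZMod Q) : 0 ≤ gap gs P R S (fun g => mult (pair k g)) := by
  have hQ : (0 : ℝ) < Q := by exact_mod_cast Nat.pos_of_ne_zero (NeZero.ne Q)
  have hPr : (0 : ℝ) < P := by exact_mod_cast hP
  have e1 : ∀ j c, pair k (Pi.single j c) = k j * c := fun j c => by
    simp [pair, Pi.single_apply]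
  have e2 : ∀ τ, pair k (fun _ => τ) = (∑ j, k j) * τ := fun τ => by
    simp [pair, Finset.sum_mul]
  simp only [gap, e1, e2, mult_sum, sub_nonneg]
  set A := (∑ j, if k j = 0 then (0 : ℝ) else 2 * (Q : ℝ)) / (Q * P) with hA
  set B := (∑ j, ∑ δ ∈ Finset.Icc 1 R, mult (k j * (δ : ZMod Q))) / (R : ℝ) with hB
  set C := (S : ℝ) ^ 2 * (gs.map fun g => mult (pair k g)).sum with hC
  have hA0 : 0 ≤ A := div_nonneg (Finset.sum_nonneg fun j _ => by split_ifs <;> positivity)
    (by positivity)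
  have hB0 : 0 ≤ B := div_nonneg (Finset.sum_nonneg fun j _ => Finset.sum_nonneg fun δ _ =>
    mult_nonneg _) (Nat.cast_nonneg R)
  have hC0 : 0 ≤ C := mul_nonneg (sq_nonneg _) (List.sum_nonneg fun x hx => by
    obtain ⟨g, -, rfl⟩ := List.mem_map.mp hx; exact mult_nonneg _)
  by_cases hs : (∑ j, k j) = 0
  · rw [if_pos hs, zero_div]; positivity
  rw [if_neg hs, mul_div_assoc, div_self hQ.ne', mul_one]
  rcases key k hs with h | ⟨j, hj⟩ | ⟨g, hg, hgS⟩
  · have : 2 ≤ A := by
      rw [hA, le_div_iff₀ (by positivity), Finset.sum_ite, Finset.sum_const_zero, zero_add,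
        Finset.sum_const, nsmul_eq_mul]
      have h' : (P : ℝ) ≤ ((univ.filter fun j => ¬k j = 0).card : ℝ) := by exact_mod_cast h
      nlinarith
    linarith
  · have : 1 ≤ B := by
      refine (mult_avg (k j) R K hR hj).trans ?_
      rw [hB]
      gcongr
      exact Finset.single_le_sum (f := fun j => ∑ δ ∈ Finset.Icc 1 R, mult (k j * (δ : ZMod Q)))
        (fun i _ => Finset.sum_nonneg fun δ _ => mult_nonneg _) (mem_univ j)
    linarith
  · have hm : 16 ≤ (S : ℝ) ^ 2 * mult (pair k g) := by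
      have h1 := psi_sub_one_ge (pair k g)
      have h2 : (Q : ℝ) ≤ (S : ℝ) * nrm (pair k g) := by exact_mod_cast hgS.le
      rw [div_le_iff₀ hQ] at h1
      have h3 : (4 : ℝ) ≤ S * ‖(ZMod.stdAddChar : AddChar (ZMod Q) ℂ) (pair k g) - 1‖ := by
        refine le_of_mul_le_mul_right ?_ hQ
        have := mul_le_mul_of_nonneg_left h1 (Nat.cast_nonneg S : (0 : ℝ) ≤ S)
        nlinarith
      rw [mult, ← mul_pow]
      nlinarith
    have : 16 ≤ C := by
      refine hm.trans ?_
      rw [hC]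
      gcongr
      exact List.single_le_sum (fun x hx => by
        obtain ⟨g, -, rfl⟩ := List.mem_map.mp hx; exact mult_nonneg _) _
        (List.mem_map.mpr ⟨g, hg, rfl⟩)
    linarith

end

/-- Poincaré inequality: variation along the diagonal is controlled by resampling a coordinate,
short translations of a coordinate, and the translations in `gs`. -/
theorem poincare {J : Type*} [Fintype J] [DecidableEq J] {Q : ℕ} [Fact Q.Prime]
    (gs : List (J → ZMod Q)) (P K R S : ℕ) (hP : 0 < P) (hR : Q ≤ R * K)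
    (key : ∀ kk : J → ZMod Q, (∑ j, kk j) ≠ 0 → P ≤ (univ.filter fun j => kk j ≠ 0).card ∨
      (∃ j, K < nrm (kk j)) ∨ ∃ g ∈ gs, Q < S * nrm (∑ j, kk j * g j))
    (f : (J → ZMod Q) → ℝ) :
    (∑ τ : ZMod Q, energy f (fun _ => τ)) / Q ≤
      4 * ((∑ j, ∑ c : ZMod Q, energy f (Pi.single j c)) / (Q * P) +
        (∑ j, ∑ δ ∈ Finset.Icc 1 R, energy f (Pi.single j (δ : ZMod Q))) / R +
        (S : ℝ) ^ 2 * (gs.map (energy f)).sum) := by
  have : NeZero Q := ⟨(Fact.out : Q.Prime).ne_zero⟩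
  have := gap_layers gs P R S (fun h hb => ?_) f
  · simpa [gap] using this
  · rw [show energy h = fun g => ∑ k, ((Fintype.card (J → ZMod Q) : ℝ)⁻¹ * ‖four h k‖ ^ 2) *
        mult (pair k g) from funext fun g => by
      rw [energy_bool h hb g, Finset.mul_sum]; simp only [mul_assoc], gap_sum]
    exact Finset.sum_nonneg fun k _ =>
      mul_nonneg (by positivity) (gap_freq gs P K R S hP hR key k)

end Vale.Agent.P238
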