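import Vale.Agent.P238.Cost
import Mathlib.Analysis.Normed.Lp.lpSpace
import Mathlib.Analysis.Real.Sqrt
import Mathlib.Analysis.SpecialFunctions.Log.Basic
import Mathlib.Analysis.SpecialFunctions.Pow.Real
import Mathlib.NumberTheory.Bertrand

/-! Assembly of the lower bound exp(c √log n) from the four parts (P238). -/

namespace Vale.Agent.P238

open Finset
open scoped ENNReal


/-- Distance from `x` to `y` for words of length `n`. -/
noncomputable def wordED {n : ℕ} (x y : Fin n → Bool) : ℕ := ED (List.ofFn x) (List.ofFn y)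

/-- A list of length `n` as a word. -/
def toWord (n : ℕ) (l : List Bool) : Fin n → Bool := fun i => l.getD i false

theorem ofFn_toWord {n : ℕ} {l : List Bool} (h : l.length = n) :
    List.ofFn (toWord n l) = l := by
  apply List.ext_getElem
  · simp [h]
  · intro i h1 h2
    simp [toWord, List.getD_eq_getElem?_getD, h2]

theorem lp_norm_one (u : lp (fun _ : ℕ => ℝ) 1) : ‖u‖ = ∑' i, |u i| := by
  rw [lp.norm_eq_tsum_rpow (by simp)]
  simp [Real.norm_eq_abs]

theorem lp_summable_one (u : lp (fun _ : ℕ => ℝ) 1) : Summable fun i => |u i| := by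
  simpa [Real.norm_eq_abs] using (lp.memℓp u).summable (by simp)

theorem lp_sum_le (u : lp (fun _ : ℕ => ℝ) 1) (s : Finset ℕ) : ∑ i ∈ s, |u i| ≤ ‖u‖ := by
  rw [lp_norm_one]
  exact (lp_summable_one u).sum_le_tsum s fun i _ => abs_nonneg _

/-- Total variation of an ℓ¹-valued function under a translation. -/
noncomputable def energyL {G : Type*} [Fintype G] [Add G] (f : G → lp (fun _ : ℕ => ℝ) 1)
    (g : G) : ℝ :=
  ∑ x, ‖f (x + g) - f x‖

theorem sum_energy_le {G : Type*} [Fintype G] [Add G] (f : G → lp (fun _ : ℕ => ℝ) 1) (g : G)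
    (s : Finset ℕ) : ∑ i ∈ s, energy (fun x => f x i) g ≤ energyL f g := by
  simp only [energy, energyL]
  rw [sum_comm]
  refine sum_le_sum fun x _ => ?_
  simpa using lp_sum_le (f (x + g) - f x) s

/-- A linear inequality between energies passes to ℓ¹-valued functions. -/
theorem lift_l1 {G α β γ : Type*} [Fintype G] [Add G] [Fintype α] [Fintype β]
    (u : α → G) (v : β → G) (w : γ → G) (T : Finset γ) (L : List G) (cu cv cw cL : ℝ)
    (hu : 0 ≤ cu) (hv : 0 ≤ cv) (hw : 0 ≤ cw) (hL : 0 ≤ cL)
    (h : ∀ f : G → ℝ, cu * ∑ t, energy f (u t) ≤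
      cv * ∑ b, energy f (v b) + cw * ∑ c ∈ T, energy f (w c) + cL * (L.map (energy f)).sum)
    (f : G → lp (fun _ : ℕ => ℝ) 1) :
    cu * ∑ t, energyL f (u t) ≤
      cv * ∑ b, energyL f (v b) + cw * ∑ c ∈ T, energyL f (w c) +
        cL * (L.map (energyL f)).sum := by
  have hs : ∀ g, Summable fun i => energy (fun x => f x i) g := by
    intro g
    simp only [energy]
    exact summable_sum fun x _ => by simpa using lp_summable_one (f (x + g) - f x)
  have heq : ∀ g, energyL f g = ∑' i, energy (fun x => f x i) g := by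
    intro g
    simp only [energy, energyL]
    rw [Summable.tsum_finsetSum]
    · exact sum_congr rfl fun x _ => by simpa using lp_norm_one (f (x + g) - f x)
    · exact fun x _ => by simpa using lp_summable_one (f (x + g) - f x)
  calc cu * ∑ t, energyL f (u t) = ∑' i, cu * ∑ t, energy (fun x => f x i) (u t) := by
        rw [tsum_mul_left, Summable.tsum_finsetSum fun t _ => hs _]
        exact congrArg _ (sum_congr rfl fun t _ => heq _)
    _ ≤ _ := by
        refine Real.tsum_le_of_sum_le
          (fun i => mul_nonneg hu (sum_nonneg fun t _ => sum_nonneg fun x _ => abs_nonneg _))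
          fun s => (sum_le_sum fun i _ => h _).trans ?_
        simp only [sum_add_distrib, ← mul_sum]
        refine add_le_add (add_le_add (mul_le_mul_of_nonneg_left ?_ hv)
          (mul_le_mul_of_nonneg_left ?_ hw)) (mul_le_mul_of_nonneg_left ?_ hL)
        · rw [sum_comm]; exact sum_le_sum fun b _ => sum_energy_le f _ s
        · rw [sum_comm]; exact sum_le_sum fun b _ => sum_energy_le f _ s
        · clear * -
          induction L with
          | nil => simp
          | cons g L ih =>
            simp only [List.map_cons, List.sum_cons, sum_add_distrib]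
            exact add_le_add (sum_energy_le f g s) ih

/-- Few residues are near zero. -/
theorem card_near {Q : ℕ} [NeZero Q] (r : ℕ) :
    (univ.filter fun v : ZMod Q => nrm v ≤ r).card ≤ 2 * r + 1 := by
  calc _ ≤ (Icc (-(r : ℤ)) r).card := by
        refine card_le_card_of_injOn ZMod.valMinAbs ?_ (ZMod.injective_valMinAbs.injOn)
        intro v hv
        have hv' : nrm v ≤ r := by simpa using hv
        unfold nrm at hv'
        simp only [coe_Icc, Set.mem_Icc]
        omega
    _ = 2 * r + 1 := by simp; omega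

/-- The distortion bound at one level, from the four parts. -/
theorem distortion_core {Q N : ℕ} [NeZero N] [Fact Q.Prime]
    (k d E S K P R q n : ℕ) [NeZero q] (a : Fin N → ZMod Q)
    (cd : J N k × Fin q → Fin (64 * d) → Bool)
    (hd : 0 < d) (hN : 2 ≤ N) (hE : E = P * S ^ 2) (hE0 : 0 < E)
    (hP : 0 < P) (hR : 0 < R) (hS : 0 < S)
    (hRq : q * R * P ≤ Q) (hfar : 2 * (2 * (Q / q + 1) + 1) ≤ Q)
    (poincare : ∀ f : (J N k → ZMod Q) → ℝ,
      (∑ τ : ZMod Q, energy f (fun _ => τ)) / Q ≤
        4 * ((∑ j, ∑ c : ZMod Q, energy f (Pi.single j c)) / (Q * P) +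
          (∑ j, ∑ δ ∈ Finset.Icc 1 R, energy f (Pi.single j (δ : ZMod Q))) / R +
          (S : ℝ) ^ 2 * ((gens a k).map (energy f)).sum))
    (hed : ∀ u v : ℕ → J N k × Fin q, (∀ p, p + 1 < nSlots N E k → u p ≠ u (p + 1)) →
      (∀ M, IsMatching (nSlots N E k) u v M →
        nSlots N E k + 4 ^ k * M.card ≤ 4 ^ k * nSlots N E k) →
      ∀ z, nSlots N E k * (64 * d) ≤
        1024 * 4 ^ k * ED (code cd (nSlots N E k) u ++ z) (code cd (nSlots N E k) v ++ z))
    (hmatch : ∀ φ ψ : J N k → ZMod Q, ∀ T, Q / q + 1 < nrm T → (∀ j, ψ j = φ j + T) →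
      ∀ M, IsMatching (nSlots N E k) (symb q E a k ψ) (symb q E a k φ) M →
        nSlots N E k + 4 ^ k * M.card ≤ 4 ^ k * nSlots N E k)
    (hn : nSlots N E k * (64 * d) ≤ n)
    (f : (Fin n → Bool) → lp (fun _ : ℕ => ℝ) 1) (A B : ℝ) (hA : 0 ≤ A) (hB : 0 ≤ B)
    (hf : ∀ x y, ‖f x - f y‖ ≤ A * wordED x y ∧ (wordED x y : ℝ) ≤ B * ‖f x - f y‖) :
    (P : ℝ) ≤ 8192 * 4 ^ k * (2 * k + 4) * (A * B) := by
  set n0 := nSlots N E k with hn0
  set z : List Bool := List.replicate (n - n0 * (64 * d)) false with hz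
  let W : (J N k → ZMod Q) → Fin n → Bool := fun φ => toWord n (word q E a k cd φ ++ z)
  have hlen : ∀ φ, (word q E a k cd φ ++ z).length = n := by
    intro φ
    simp [word, length_code, z, ← hn0]
    omega
  let F : (J N k → ZMod Q) → lp (fun _ : ℕ => ℝ) 1 := fun φ => f (W φ)
  have hWED : ∀ φ ψ, wordED (W φ) (W ψ) = ED (word q E a k cd φ ++ z) (word q E a k cd ψ ++ z) := by
    intro φ ψ
    simp only [wordED, W, ofFn_toWord (hlen _)]
  have hup : ∀ φ ψ, ‖F φ - F ψ‖ ≤ A * ED (word q E a k cd φ) (word q E a k cd ψ) := by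
    intro φ ψ
    refine ((hf _ _).1).trans (mul_le_mul_of_nonneg_left ?_ hA)
    rw [hWED]
    have := ED_append (word q E a k cd φ) z (word q E a k cd ψ) z
    rw [ED_self] at this
    exact_mod_cast this
  have hQ0 : (0 : ℝ) < Q := Nat.cast_pos.2 (NeZero.pos Q)
  have hP0 : (0 : ℝ) < P := Nat.cast_pos.2 hP
  have hR0 : (0 : ℝ) < R := Nat.cast_pos.2 hR
  set G : ℝ := (Fintype.card (J N k → ZMod Q) : ℝ) with hG
  have hG0 : 0 < G := Nat.cast_pos.2 Fintype.card_pos
  set fib : J N k → ℕ := fun j => ((range n0).filter fun p => lab E a k p = j).card with hfib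
  have hfibs : ∑ j, (fib j : ℝ) = n0 := by
    rw [← Nat.cast_sum]
    exact_mod_cast sum_fibres k
  -- the lifted inequality
  have key := lift_l1 (fun τ : ZMod Q => fun _ : J N k => τ)
    (fun b : J N k × ZMod Q => Pi.single b.1 b.2)
    (fun c : J N k × ℕ => Pi.single c.1 (c.2 : ZMod Q)) (univ ×ˢ Icc 1 R) (gens a k)
    (1 / Q) (4 / (Q * P)) (4 / R) (4 * (S : ℝ) ^ 2) (by positivity) (by positivity) (by positivity)
    (by positivity) (fun g => by
      have h := poincare g
      rw [Fintype.sum_prod_type, sum_product]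
      calc 1 / (Q : ℝ) * ∑ τ : ZMod Q, energy g (fun _ => τ)
          = (∑ τ : ZMod Q, energy g (fun _ => τ)) / Q := by ring
        _ ≤ _ := h
        _ = _ := by ring) F
  -- the three right-hand terms
  have hres : ∑ b : J N k × ZMod Q, energyL F (Pi.single b.1 b.2) ≤
      A * G * Q * (2 * (64 * d) * n0) := by
    calc _ ≤ ∑ b : J N k × ZMod Q, A * G * (2 * (64 * d) * fib b.1 : ℝ) := by
          refine sum_le_sum fun b _ => ?_
          rw [energyL, mul_assoc A G, mul_left_comm A G]
          calc ∑ x, ‖F (x + Pi.single b.1 b.2) - F x‖ ≤ ∑ _x : J N k → ZMod Q,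
                A * (2 * (64 * d) * fib b.1 : ℝ) := by
                refine sum_le_sum fun x _ => (hup _ _).trans (mul_le_mul_of_nonneg_left ?_ hA)
                exact_mod_cast ED_resample k cd _ x b.1 fun i hi => by simp [hi]
            _ = _ := by rw [sum_const, card_univ, nsmul_eq_mul]
      _ = _ := by
          rw [Fintype.sum_prod_type]
          simp only [sum_const, card_univ, ZMod.card, nsmul_eq_mul, ← mul_sum, hfibs]
          ring
  have htr : (Q : ℝ) * ∑ c ∈ (univ : Finset (J N k)) ×ˢ Icc 1 R,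
      energyL F (Pi.single c.1 (c.2 : ZMod Q)) ≤ A * G * R * (2 * (64 * d) * n0) * (q * R) := by
    rw [mul_sum]
    calc _ ≤ ∑ c ∈ (univ : Finset (J N k)) ×ˢ Icc 1 R, A * G * (2 * (64 * d) * fib c.1) * (q * R) := by
          refine sum_le_sum fun c hc => ?_
          simp only [mem_product, mem_univ, true_and, mem_Icc] at hc
          rw [energyL, mul_sum]
          calc ∑ x, (Q : ℝ) * ‖F (x + Pi.single c.1 (c.2 : ZMod Q)) - F x‖
              ≤ ∑ x, A * ((Q : ℝ) * ED (word q E a k cd (x + Pi.single c.1 (c.2 : ZMod Q)))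
                  (word q E a k cd x)) := by
                refine sum_le_sum fun x _ => ?_
                rw [mul_left_comm]
                exact mul_le_mul_of_nonneg_left (hup _ _) hQ0.le
            _ ≤ A * ((2 * (64 * d) * (q * R) * Fintype.card (J N k → ZMod Q) * fib c.1 : ℕ) : ℝ) := by
                rw [← mul_sum, ← mul_sum]
                refine mul_le_mul_of_nonneg_left ?_ hA
                exact_mod_cast (ED_translate k cd c.1 c.2).trans (by gcongr; exact hc.2)
            _ = _ := by push_cast; ring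
      _ = _ := by
          rw [sum_product]
          simp only [sum_const, Nat.card_Icc, add_tsub_cancel_right, nsmul_eq_mul, ← mul_sum,
            ← sum_mul, hfibs]
          ring
  have hgen : (E : ℝ) * ((gens a k).map (energyL F)).sum ≤ A * G * (2 * (64 * d) * k * n0) := by
    have h1 : ((gens a k).map (energyL F)).sum ≤
        ((gens a k).map fun g => A * ∑ x, (ED (word q E a k cd (x + g)) (word q E a k cd x) : ℝ)).sum := by
      refine List.sum_le_sum fun g _ => ?_
      rw [energyL, mul_sum]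
      exact sum_le_sum fun x _ => hup _ _
    refine (mul_le_mul_of_nonneg_left h1 (by positivity)).trans ?_
    have h2 : ((gens a k).map fun g => A * ∑ x,
        (ED (word q E a k cd (x + g)) (word q E a k cd x) : ℝ)).sum =
        A * ∑ x, ((((gens a k).map fun g =>
          ED (word q E a k cd (x + g)) (word q E a k cd x)).sum : ℕ) : ℝ) := by
      generalize gens a k = L
      induction L with
      | nil => simp
      | cons g L ih => simp [ih, sum_add_distrib, mul_add]
    rw [h2, mul_left_comm, mul_assoc A G, mul_sum]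
    refine mul_le_mul_of_nonneg_left ?_ hA
    calc _ ≤ ∑ _x : J N k → ZMod Q, ((2 * (64 * d) * k * n0 : ℕ) : ℝ) := by
          refine sum_le_sum fun x _ => ?_
          exact_mod_cast ED_gens hE0 k cd x
      _ = _ := by rw [sum_const, card_univ, nsmul_eq_mul]; push_cast; ring
  -- the left-hand side
  have hlow : ∀ τ : ZMod Q, Q / q + 1 < nrm τ →
      G * ((n0 * (64 * d) : ℕ) : ℝ) ≤ 1024 * 4 ^ k * B * energyL F (fun _ => τ) := by
    intro τ hτ
    rw [energyL, mul_sum]
    calc _ = ∑ _x : J N k → ZMod Q, ((n0 * (64 * d) : ℕ) : ℝ) := by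
          rw [sum_const, card_univ, nsmul_eq_mul]
      _ ≤ _ := by
          refine sum_le_sum fun x _ => ?_
          have hne : ∀ p, p + 1 < n0 →
              symb q E a k (x + fun _ => τ) p ≠ symb q E a k (x + fun _ => τ) (p + 1) := by
            intro p hp heq
            rw [symb_eq, symb_eq] at heq
            exact lab_ne_succ hN hE0 k p hp (Prod.mk.inj heq).1
          have h1 := hed _ (symb q E a k x) hne
            (fun M hM => hmatch x _ τ hτ (fun j => rfl) M hM) z
          have h2 : ((n0 * (64 * d) : ℕ) : ℝ) ≤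
              ((1024 * 4 ^ k * ED (word q E a k cd (x + fun _ => τ) ++ z)
                (word q E a k cd x ++ z) : ℕ) : ℝ) := Nat.cast_le.2 h1
          refine h2.trans ?_
          rw [mul_assoc _ B, Nat.cast_mul, ← hWED]
          push_cast
          exact mul_le_mul_of_nonneg_left (hf _ _).2 (by positivity)
  have hLHS : G * ((n0 * (64 * d) : ℕ) : ℝ) * Q ≤
      2 * (1024 * 4 ^ k * B) * ∑ τ : ZMod Q, energyL F (fun _ => τ) := by
    classical
    set far := univ.filter fun τ : ZMod Q => Q / q + 1 < nrm τ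
    have hc : Q ≤ 2 * far.card := by
      have h1 := card_filter_add_card_filter_not (s := (univ : Finset (ZMod Q)))
        (fun τ => Q / q + 1 < nrm τ)
      rw [card_univ, ZMod.card] at h1
      have h2 := card_near (Q := Q) (Q / q + 1)
      have h3 : (univ.filter fun τ : ZMod Q => ¬Q / q + 1 < nrm τ) =
          univ.filter fun τ : ZMod Q => nrm τ ≤ Q / q + 1 := by simp
      rw [h3] at h1
      simp only [far]
      omega
    calc G * ((n0 * (64 * d) : ℕ) : ℝ) * Q ≤ G * ((n0 * (64 * d) : ℕ) : ℝ) * (2 * far.card : ℕ) := by gcongr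
      _ = 2 * ∑ _τ ∈ far, G * ((n0 * (64 * d) : ℕ) : ℝ) := by
          rw [sum_const, nsmul_eq_mul]
          push_cast
          ring
      _ ≤ 2 * ∑ τ ∈ far, 1024 * 4 ^ k * B * energyL F (fun _ => τ) := by
          exact mul_le_mul_of_nonneg_left
            (sum_le_sum fun τ hτ => hlow τ (mem_filter.1 hτ).2) zero_le_two
      _ ≤ _ := by
          rw [← mul_sum, ← mul_assoc 2]
          exact mul_le_mul_of_nonneg_left (sum_le_sum_of_subset_of_nonneg (subset_univ _)
            fun τ _ _ => sum_nonneg fun x _ => norm_nonneg _) (by positivity)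
  -- combine
  set LE := ∑ τ : ZMod Q, energyL F (fun _ => τ)
  set R1 := ∑ b : J N k × ZMod Q, energyL F (Pi.single b.1 b.2)
  set R2 := ∑ c ∈ (univ : Finset (J N k)) ×ˢ Icc 1 R, energyL F (Pi.single c.1 (c.2 : ZMod Q))
  set R3 := ((gens a k).map (energyL F)).sum
  have hS0 : (0 : ℝ) < S := Nat.cast_pos.2 hS
  have hEr : (E : ℝ) = P * (S : ℝ) ^ 2 := by rw [hE]; push_cast; ring
  have hRqr : (q : ℝ) * R * P ≤ Q := by exact_mod_cast hRq
  set M0 : ℝ := A * G * (2 * (64 * d) * n0) with hM0
  have hM00 : 0 ≤ M0 := by positivity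
  have t1 : 4 / ((Q : ℝ) * P) * R1 ≤ 4 / P * M0 := by
    calc _ ≤ 4 / ((Q : ℝ) * P) * (A * G * Q * (2 * (64 * d) * n0)) :=
          mul_le_mul_of_nonneg_left hres (by positivity)
      _ = _ := by simp only [hM0]; field_simp
  have t2 : 4 / (R : ℝ) * R2 ≤ 4 / P * M0 := by
    calc 4 / (R : ℝ) * R2 = 4 / (R * Q) * (Q * R2) := by field_simp
      _ ≤ 4 / ((R : ℝ) * Q) * (A * G * R * (2 * (64 * d) * n0) * (q * R)) :=
          mul_le_mul_of_nonneg_left htr (by positivity)
      _ = 4 / (P : ℝ) * M0 * ((q * R * P) / Q) := by simp only [hM0]; field_simp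
      _ ≤ 4 / (P : ℝ) * M0 * 1 := by
          gcongr
          exact (div_le_one hQ0).2 hRqr
      _ = _ := mul_one _
  have t3 : 4 * (S : ℝ) ^ 2 * R3 ≤ 4 / P * (k * M0) := by
    calc 4 * (S : ℝ) ^ 2 * R3 = 4 / P * ((E : ℝ) * R3) := by rw [hEr]; field_simp
      _ ≤ 4 / (P : ℝ) * (A * G * (2 * (64 * d) * k * n0)) :=
          mul_le_mul_of_nonneg_left hgen (by positivity)
      _ = _ := by simp only [hM0]; ring
  have hall : 1 / (Q : ℝ) * LE ≤ 4 / P * ((k + 2) * M0) := by
    calc _ ≤ _ := key
      _ ≤ 4 / (P : ℝ) * M0 + 4 / P * M0 + 4 / P * (k * M0) := by linarith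
      _ = _ := by ring
  have hfin : G * ((n0 * (64 * d) : ℕ) : ℝ) * P ≤
      2 * (1024 * 4 ^ k * B) * (4 * ((k + 2) * M0)) := by
    have h1 : G * ((n0 * (64 * d) : ℕ) : ℝ) ≤ 2 * (1024 * 4 ^ k * B) * (1 / Q * LE) := by
      calc G * ((n0 * (64 * d) : ℕ) : ℝ) = G * ((n0 * (64 * d) : ℕ) : ℝ) * Q / Q := by field_simp
        _ ≤ 2 * (1024 * 4 ^ k * B) * LE / Q := div_le_div_of_nonneg_right hLHS hQ0.le
        _ = _ := by ring
    calc G * ((n0 * (64 * d) : ℕ) : ℝ) * P ≤ 2 * (1024 * 4 ^ k * B) * (1 / Q * LE) * P := by gcongr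
      _ ≤ 2 * (1024 * 4 ^ k * B) * (4 / P * ((k + 2) * M0)) * P := by gcongr
      _ = _ := by field_simp
  have hpos : 0 < G * ((n0 * (64 * d) : ℕ) : ℝ) := by
    have := nSlots_pos (NeZero.pos N) hE0 k
    have : 0 < n0 * (64 * d) := Nat.mul_pos this (by omega)
    exact mul_pos hG0 (Nat.cast_pos.2 this)
  refine le_of_mul_le_mul_left ?_ hpos
  refine hfin.trans (le_of_eq ?_)
  simp only [hM0]
  push_cast
  ring

end Vale.Agent.P238
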