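import Vale.Agent.P238.Cost
import Mathlib.Data.List.Sublists
import Mathlib.Data.Nat.Choose.Sum

/-! A random binary code, and the passage from edit distance to slot matchings (P238, part B). -/

namespace Vale.Agent.P238

open Finset

/-- No code word shares a long common subsequence with a short stretch of three other ones. -/
def CodeGood {Sy : Type*} (d : ℕ) (cd : Sy → Fin (64 * d) → Bool) : Prop :=
  ∀ s s1 s2 s3, s1 ≠ s → s2 ≠ s → s3 ≠ s → ∀ z t : List Bool,
    z <:+: (List.ofFn (cd s1) ++ List.ofFn (cd s2) ++ List.ofFn (cd s3)) → z.length ≤ 65 * d →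
      t.Sublist z → t.Sublist (List.ofFn (cd s)) → t.length < 63 * d

/-- `c` contains a long subsequence of `z`. -/
def Close (d : ℕ) (z : List Bool) (c : Fin (64 * d) → Bool) : Prop :=
  ∃ t ∈ (z.sublistsLen (63 * d)).toFinset, t.Sublist (List.ofFn c)

theorem card_supseq : ∀ (n : ℕ) (t : List Bool),
    (univ.filter fun c : Fin n → Bool => t.Sublist (List.ofFn c)).card ≤
      n.choose t.length * 2 ^ (n - t.length)
  | 0, [] => by simp
  | 0, a :: t => by simp
  | n + 1, [] => by simp
  | n + 1, a :: t => by
    classical
    have hsub : (univ.filter fun c : Fin (n + 1) → Bool => (a :: t).Sublist (List.ofFn c)) ⊆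
        ((univ.filter fun c : Fin n → Bool => t.Sublist (List.ofFn c)).image (Fin.cons a)) ∪
        ((univ.filter fun c : Fin n → Bool => (a :: t).Sublist (List.ofFn c)).image
          (Fin.cons (!a))) := by
      intro c hc
      have h := (mem_filter.1 hc).2
      rw [List.ofFn_succ] at h
      simp only [mem_union, mem_image, mem_filter, mem_univ, true_and]
      by_cases h0 : c 0 = a
      · refine Or.inl ⟨fun i => c i.succ, ?_, ?_⟩
        · rw [h0] at h
          exact List.cons_sublist_cons.1 h
        · rw [← h0]
          exact Fin.cons_self_tail c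
      · refine Or.inr ⟨fun i => c i.succ, ?_, ?_⟩
        · rcases List.sublist_cons_iff.1 h with h | ⟨r, hr, _⟩
          · exact h
          · exact absurd (List.cons.inj hr).1.symm h0
        · rw [show (!a) = c 0 by cases a <;> cases hc0 : c 0 <;> simp_all]
          exact Fin.cons_self_tail c
    refine (card_le_card hsub).trans ((card_union_le _ _).trans ?_)
    refine (Nat.add_le_add (card_image_le.trans (card_supseq n t))
      (card_image_le.trans (card_supseq n (a :: t)))).trans ?_
    rw [List.length_cons, Nat.choose_succ_succ, Nat.add_mul, Nat.succ_sub_succ]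
    gcongr <;> omega

theorem choose_mul_pow_le (n r b : ℕ) : n.choose r * b ^ (n - r) ≤ (1 + b) ^ n := by
  rw [add_pow]
  rcases le_or_gt r n with h | h
  · refine le_trans (le_of_eq ?_) (single_le_sum (fun i _ => Nat.zero_le _)
      (mem_range.2 (Nat.lt_succ_of_le h)))
    simp [Nat.mul_comm]
  · simp [Nat.choose_eq_zero_of_lt h]

theorem choose_big (d : ℕ) : (65 * d).choose (63 * d) ≤ 2 ^ (14 * d) := by
  rw [← Nat.choose_symm_of_eq_add (show 65 * d = 2 * d + 63 * d by ring)]
  refine Nat.le_of_mul_le_mul_right ?_ (Nat.pow_pos (n := 63 * d) (by norm_num : 0 < 32))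
  calc (65 * d).choose (2 * d) * 32 ^ (63 * d) ≤ (1 + 32) ^ (65 * d) := by
        have := choose_mul_pow_le (65 * d) (2 * d) 32
        rwa [show 65 * d - 2 * d = 63 * d by omega] at this
    _ ≤ (2 ^ 14 * 32 ^ 63) ^ d := by
        rw [pow_mul]
        exact Nat.pow_le_pow_left (by norm_num) d
    _ = _ := by rw [mul_pow, ← pow_mul, ← pow_mul]

theorem choose_small (d : ℕ) : (64 * d).choose (63 * d) ≤ 2 ^ (8 * d) := by
  rw [← Nat.choose_symm_of_eq_add (show 64 * d = d + 63 * d by ring)]
  refine Nat.le_of_mul_le_mul_right ?_ (Nat.pow_pos (n := 63 * d) (by norm_num : 0 < 63))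
  calc (64 * d).choose d * 63 ^ (63 * d) ≤ (1 + 63) ^ (64 * d) := by
        have := choose_mul_pow_le (64 * d) d 63
        rwa [show 64 * d - d = 63 * d by omega] at this
    _ ≤ (2 ^ 8 * 63 ^ 63) ^ d := by
        rw [pow_mul]
        exact Nat.pow_le_pow_left (by norm_num) d
    _ = _ := by rw [mul_pow, ← pow_mul, ← pow_mul]

open scoped Classical in
theorem card_close (d : ℕ) (z : List Bool) (hz : z.length ≤ 65 * d) :
    (univ.filter fun c : Fin (64 * d) → Bool => Close d z c).card ≤ 2 ^ (23 * d) := by
  have hsub : (univ.filter fun c : Fin (64 * d) → Bool => Close d z c) ⊆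
      (z.sublistsLen (63 * d)).toFinset.biUnion fun t =>
        univ.filter fun c : Fin (64 * d) → Bool => t.Sublist (List.ofFn c) := by
    intro c hc
    obtain ⟨t, ht, htc⟩ := (mem_filter.1 hc).2
    simp only [mem_biUnion, mem_filter, mem_univ, true_and]
    exact ⟨t, ht, htc⟩
  refine (card_le_card hsub).trans (card_biUnion_le.trans ?_)
  calc _ ≤ ∑ _t ∈ (z.sublistsLen (63 * d)).toFinset, (64 * d).choose (63 * d) * 2 ^ d := by
        refine sum_le_sum fun t ht => ?_
        have hl := (List.mem_sublistsLen.1 (List.mem_toFinset.1 ht)).2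
        have := card_supseq (64 * d) t
        rwa [hl, show 64 * d - 63 * d = d by omega] at this
    _ ≤ (65 * d).choose (63 * d) * ((64 * d).choose (63 * d) * 2 ^ d) := by
        rw [sum_const, smul_eq_mul]
        refine Nat.mul_le_mul_right _ ((List.toFinset_card_le _).trans ?_)
        rw [List.length_sublistsLen]
        exact Nat.choose_le_choose _ hz
    _ ≤ 2 ^ (14 * d) * (2 ^ (8 * d) * 2 ^ d) := by
        gcongr
        · exact choose_big d
        · exact choose_small d
    _ = 2 ^ (23 * d) := by rw [← pow_add, ← pow_add]; ring_nf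

open scoped Classical in
theorem exists_code {Sy : Type*} [Fintype Sy] [DecidableEq Sy] (d : ℕ) (hd : 1 ≤ d)
    (h : Fintype.card Sy ^ 4 * (2 ^ 16 * d ^ 2) ≤ 2 ^ (40 * d)) :
    ∃ cd : Sy → Fin (64 * d) → Bool, CodeGood d cd := by
  set m := 64 * d with hm
  let zof : (Sy → Fin m → Bool) → Sy × Sy × Sy → ℕ × ℕ → List Bool := fun cd s il =>
    ((List.ofFn (cd s.1) ++ List.ofFn (cd s.2.1) ++ List.ofFn (cd s.2.2)).drop il.1).take il.2
  let Idx := (Sy × Sy × Sy × Sy) × (ℕ × ℕ)
  let idx : Finset Idx := univ ×ˢ (range (3 * m + 1) ×ˢ range (65 * d + 1))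
  let badAt : Idx → Finset (Sy → Fin m → Bool) := fun x => univ.filter fun cd =>
    x.1.2.1 ≠ x.1.1 ∧ x.1.2.2.1 ≠ x.1.1 ∧ x.1.2.2.2 ≠ x.1.1 ∧
      Close d (zof cd x.1.2 x.2) (cd x.1.1)
  set T := Fintype.card (Sy → Fin m → Bool) with hT
  have hbad : ∀ x ∈ idx, (badAt x).card * 2 ^ m ≤ 2 ^ (23 * d) * T := by
    intro x hx
    obtain ⟨⟨s, s1, s2, s3⟩, i, len⟩ := x
    have hlen : len < 65 * d + 1 := mem_range.1 (mem_product.1 (mem_product.1 hx).2).2
    let e := Equiv.funSplitAt s (Fin m → Bool)
    have hTe : T = 2 ^ m * Fintype.card ({y // y ≠ s} → Fin m → Bool) := by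
      rw [hT, Fintype.card_congr e, Fintype.card_prod, Fintype.card_fun, Fintype.card_fin,
        Fintype.card_bool]
    rw [hTe]
    have hle : (badAt ((s, s1, s2, s3), i, len)).card ≤
        2 ^ (23 * d) * Fintype.card ({y // y ≠ s} → Fin m → Bool) := by
      by_cases hne : s1 ≠ s ∧ s2 ≠ s ∧ s3 ≠ s
      swap
      · have : badAt ((s, s1, s2, s3), i, len) = ∅ := by
          refine filter_eq_empty_iff.2 fun cd _ h => hne ⟨h.1, h.2.1, h.2.2.1⟩
        simp [this]
      calc (badAt ((s, s1, s2, s3), i, len)).card
          ≤ ((univ : Finset ({y // y ≠ s} → Fin m → Bool)).sigma fun r =>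
              univ.filter fun c : Fin m → Bool =>
                Close d (zof (e.symm (c, r)) (s1, s2, s3) (i, len)) c).card := by
            refine card_le_card_of_injOn (fun cd => ⟨(e cd).2, (e cd).1⟩) ?_ ?_
            · intro cd hcd
              simp only [badAt, coe_filter, mem_univ, true_and, Set.mem_ofPred_eq] at hcd
              simp only [coe_sigma, Set.mem_sigma_iff, mem_coe, mem_univ, true_and, mem_filter,
                Prod.mk.eta, Equiv.symm_apply_apply]
              exact hcd.2.2.2
            · intro a _ b _ hab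
              simp only [Sigma.mk.injEq, heq_eq_eq] at hab
              exact e.injective (Prod.ext hab.2 hab.1)
        _ ≤ _ := by
            rw [card_sigma]
            refine (sum_le_card_nsmul _ _ (2 ^ (23 * d)) fun r _ => ?_).trans
              (le_of_eq (by rw [card_univ, smul_eq_mul, Nat.mul_comm]))
            have hind : ∀ c c' : Fin m → Bool, zof (e.symm (c, r)) (s1, s2, s3) (i, len) =
                zof (e.symm (c', r)) (s1, s2, s3) (i, len) := by
              intro c c'
              simp [zof, e, Equiv.funSplitAt_symm_apply, hne.1, hne.2.1, hne.2.2]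
            refine (card_le_card ?_).trans
              (card_close d (zof (e.symm (fun _ => false, r)) (s1, s2, s3) (i, len)) ?_)
            · intro c hc
              simp only [mem_filter, mem_univ, true_and] at hc ⊢
              rwa [hind c (fun _ => false)] at hc
            · simp only [zof, List.length_take]
              omega
    calc _ ≤ 2 ^ (23 * d) * Fintype.card ({y // y ≠ s} → Fin m → Bool) * 2 ^ m := by gcongr
      _ = _ := by ring
  have hlt : (idx.biUnion badAt).card < T := by
    refine Nat.lt_of_mul_lt_mul_right (a := 2 ^ m) ?_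
    calc (idx.biUnion badAt).card * 2 ^ m ≤ (∑ x ∈ idx, (badAt x).card) * 2 ^ m :=
          Nat.mul_le_mul_right _ card_biUnion_le
      _ = ∑ x ∈ idx, (badAt x).card * 2 ^ m := sum_mul _ _ _
      _ ≤ ∑ _x ∈ idx, 2 ^ (23 * d) * T := sum_le_sum hbad
      _ = Fintype.card Sy ^ 4 * ((3 * m + 1) * (65 * d + 1)) * (2 ^ (23 * d) * T) := by
          rw [sum_const, smul_eq_mul]
          congr 1
          simp only [idx]
          rw [card_product, card_product, card_range, card_range, card_univ, Fintype.card_prod,
            Fintype.card_prod, Fintype.card_prod]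
          ring
      _ ≤ Fintype.card Sy ^ 4 * (2 ^ 16 * d ^ 2) * (2 ^ (23 * d) * T) := by
          refine Nat.mul_le_mul_right _ (Nat.mul_le_mul_left _ ?_)
          rw [hm]
          nlinarith [Nat.mul_le_mul hd hd, Nat.le_mul_self d]
      _ ≤ 2 ^ (40 * d) * (2 ^ (23 * d) * T) := by gcongr
      _ = 2 ^ (63 * d) * T := by rw [← Nat.mul_assoc, ← pow_add]; ring_nf
      _ < 2 ^ m * T := by
          refine Nat.mul_lt_mul_of_pos_right ?_ (Fintype.card_pos)
          exact Nat.pow_lt_pow_right (by norm_num) (by omega)
      _ = T * 2 ^ m := Nat.mul_comm _ _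
  obtain ⟨cd, hcd⟩ : ∃ cd, cd ∉ idx.biUnion badAt := by
    by_contra hcon
    push Not at hcon
    exact absurd (card_le_card (s := univ) fun cd _ => hcon cd) (not_le.2 (by rwa [card_univ]))
  refine ⟨cd, fun s s1 s2 s3 n1 n2 n3 z t hz hlen htz hts => ?_⟩
  by_contra hcon
  push Not at hcon
  obtain ⟨u, v, huv⟩ := hz
  apply hcd
  refine mem_biUnion.2 ⟨((s, s1, s2, s3), u.length, z.length), ?_, ?_⟩
  · have hl := congrArg List.length huv
    simp only [List.length_append, List.length_ofFn] at hl
    exact mem_product.2 ⟨mem_univ _,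
      mem_product.2 ⟨mem_range.2 (by dsimp only; omega), mem_range.2 (by dsimp only; omega)⟩⟩
  · simp only [badAt, mem_filter, mem_univ, true_and]
    refine ⟨n1, n2, n3, t.take (63 * d), ?_, (List.take_sublist _ _).trans hts⟩
    rw [List.mem_toFinset, List.mem_sublistsLen]
    refine ⟨?_, by simp; omega⟩
    have hzof : zof cd (s1, s2, s3) (u.length, z.length) = z := by
      simp only [zof]
      rw [← huv, List.append_assoc, List.drop_left, List.take_left]
    rw [hzof]
    exact (List.take_sublist _ _).trans htz

theorem sublist_remove {u v s : List Bool} {a : Bool} (h : s.Sublist (u ++ a :: v)) :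
    ∃ t : List Bool, t.Sublist (u ++ v) ∧ t.Sublist s ∧ s.length ≤ t.length + 1 := by
  obtain ⟨s1, s2, rfl, h1, h2⟩ := List.sublist_append_iff.1 h
  rcases List.sublist_cons_iff.1 h2 with h2 | ⟨r, rfl, hr⟩
  · exact ⟨s1 ++ s2, h1.append h2, List.Sublist.refl _, by omega⟩
  · exact ⟨s1 ++ r, h1.append hr, (List.Sublist.refl _).append (List.sublist_cons_self _ _),
      by simp; omega⟩

/-- A short edit path leaves a long common subsequence. -/
theorem Reach.common : ∀ {k : ℕ} {x y : List Bool}, Reach k x y →
    ∃ s : List Bool, s.Sublist x ∧ s.Sublist y ∧ x.length ≤ s.length + k ∧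
      y.length ≤ s.length + k
  | 0, x, y, h => ⟨x, List.Sublist.refl _, h ▸ List.Sublist.refl _, by omega, by
      subst h
      omega⟩
  | k + 1, x, y, ⟨w, hw, h⟩ => by
    obtain ⟨s, hs1, hs2, hl1, hl2⟩ := Reach.common h
    rcases hw with ⟨u, v, a, rfl, rfl⟩ | ⟨u, v, a, rfl, rfl⟩ | ⟨u, v, a, b, rfl, rfl⟩
    · refine ⟨s, hs1.trans ((List.Sublist.refl u).append (List.sublist_cons_self a v)), hs2,
        ?_, by omega⟩
      simp only [List.length_append, List.length_cons] at *
      omega
    · obtain ⟨t, ht1, ht2, ht3⟩ := sublist_remove hs1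
      refine ⟨t, ht1, ht2.trans hs2, ?_, by omega⟩
      simp only [List.length_append, List.length_cons] at *
      omega
    · obtain ⟨t, ht1, ht2, ht3⟩ := sublist_remove hs1
      refine ⟨t, ht1.trans ((List.Sublist.refl u).append (List.sublist_cons_self a v)),
        ht2.trans hs2, ?_, by omega⟩
      simp only [List.length_append, List.length_cons] at *
      omega

theorem sublist_take_left {s x z : List Bool} (h : s.Sublist (x ++ z)) (L : ℕ)
    (hL : L + z.length ≤ s.length) : (s.take L).Sublist x := by
  obtain ⟨s1, s2, rfl, h1, h2⟩ := List.sublist_append_iff.1 h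
  have := h2.length_le
  simp only [List.length_append] at hL
  rw [List.take_append_of_le_length (by omega)]
  exact (List.take_sublist _ _).trans h1

theorem split_sublist {Sy : Type*} {m : ℕ} (cd : Sy → Fin m → Bool) (u : ℕ → Sy) :
    ∀ (n : ℕ) (s : List Bool), s.Sublist (code cd n u) →
      ∃ sp : ℕ → List Bool, s = (List.range n).flatMap sp ∧
        ∀ p < n, (sp p).Sublist (List.ofFn (cd (u p)))
  | 0, s, h => ⟨fun _ => [], by simpa [code] using h, by simp⟩
  | n + 1, s, h => by
    rw [code_add] at h
    obtain ⟨s1, s2, rfl, h1, h2⟩ := List.sublist_append_iff.1 h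
    obtain ⟨sp, rfl, hsp⟩ := split_sublist cd u n s1 h1
    refine ⟨fun p => if p < n then sp p else s2, ?_, ?_⟩
    · rw [List.range_succ, List.flatMap_append]
      congr 1
      · exact List.flatMap_congr fun p hp => by simp [List.mem_range.1 hp]
      · simp
    · intro p hp
      rcases Nat.lt_or_ge p n with hpn | hpn
      · simpa [hpn] using hsp p hpn
      · obtain rfl : p = n := by omega
        simpa [code] using h2

theorem split_superlist : ∀ (n : ℕ) (sp : ℕ → List Bool) (y : List Bool),
    ((List.range n).flatMap sp).Sublist y →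
      ∃ (zp : ℕ → List Bool) (rest : List Bool), y = (List.range n).flatMap zp ++ rest ∧
        ∀ p < n, (sp p).Sublist (zp p)
  | 0, sp, y, _ => ⟨fun _ => [], y, by simp, by simp⟩
  | n + 1, sp, y, h => by
    rw [List.range_succ, List.flatMap_append] at h
    obtain ⟨y1, y2, rfl, h1, h2⟩ := List.append_sublist_iff.1 h
    obtain ⟨zp, rest, rfl, hzp⟩ := split_superlist n sp y1 h1
    refine ⟨fun p => if p < n then zp p else rest ++ y2, [], ?_, ?_⟩
    · rw [List.range_succ, List.flatMap_append, List.append_nil, List.append_assoc]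
      congr 1
      · exact List.flatMap_congr fun p hp => by simp [List.mem_range.1 hp]
      · simp
    · intro p hp
      rcases Nat.lt_or_ge p n with hpn | hpn
      · simpa [hpn] using hzp p hpn
      · obtain rfl : p = n := by omega
        simp only [lt_irrefl, if_false]
        exact (by simpa using h2 : (sp p).Sublist y2).trans (List.sublist_append_right _ _)

theorem length_flatMap_range (f : ℕ → List Bool) :
    ∀ n, ((List.range n).flatMap f).length = ∑ p ∈ range n, (f p).length
  | 0 => by simp
  | n + 1 => by
    rw [List.range_succ, List.flatMap_append, List.length_append, length_flatMap_range f n,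
      sum_range_succ]
    simp

/-- Edit distance at most `k` between coded words gives a large slot matching. -/
theorem ed_lower {Sy : Type*} (d n L : ℕ) (cd : Sy → Fin (64 * d) → Bool) (hd : 1 ≤ d)
    (hgood : CodeGood d cd) (u v : ℕ → Sy) (hu : ∀ p, p + 1 < n → u p ≠ u (p + 1))
    (hM : ∀ M, IsMatching n u v M → n + L * M.card ≤ L * n) (pad : List Bool) :
    n * (64 * d) ≤ 1024 * L * ED (code cd n u ++ pad) (code cd n v ++ pad) := by
  classical
  set k := ED (code cd n u ++ pad) (code cd n v ++ pad)
  obtain ⟨s0, hs1, hs2, hl1, hl2⟩ := (reach_ED (code cd n u ++ pad) (code cd n v ++ pad)).common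
  simp only [List.length_append, length_code] at hl1 hl2
  set L0 := s0.length - pad.length with hL0
  have hsn : n * (64 * d) ≤ L0 + k := by omega
  set s := s0.take L0 with hs
  have hsl : n * (64 * d) ≤ s.length + k := by
    rw [hs, List.length_take]
    omega
  have hsx : s.Sublist (code cd n u) := by
    rcases le_or_gt pad.length s0.length with h | h
    · exact sublist_take_left hs1 _ (by omega)
    · simp [hs, hL0, Nat.sub_eq_zero_of_le h.le]
  have hsy : s.Sublist (code cd n v) := by
    rcases le_or_gt pad.length s0.length with h | h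
    · exact sublist_take_left hs2 _ (by omega)
    · simp [hs, hL0, Nat.sub_eq_zero_of_le h.le]
  obtain ⟨sp, hsp, hspx⟩ := split_sublist cd u n s hsx
  obtain ⟨zp, rest, hy, hspz⟩ := split_superlist n sp _ (hsp ▸ hsy)
  let off : ℕ → ℕ := fun p => ∑ i ∈ range p, (zp i).length
  have hspm : ∀ p < n, (sp p).length ≤ (64 * d) := fun p hp => by
    simpa using (hspx p hp).length_le
  have hylen : off n ≤ n * (64 * d) := by
    have := congrArg List.length hy
    rw [List.length_append, length_flatMap_range, length_code] at this
    simp only [off]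
    omega
  -- good slots
  let good : ℕ → Prop := fun p => (64 * d) - (sp p).length + ((zp p).length - (sp p).length) ≤ d
  set bad := (range n).filter fun p => ¬good p with hbad
  have hbadk : bad.card * d ≤ 2 * k := by
    have h1 : bad.card * d ≤
        ∑ p ∈ range n, ((64 * d) - (sp p).length + ((zp p).length - (sp p).length)) := by
      refine le_trans ?_ (sum_le_sum_of_subset (filter_subset (fun p => ¬good p) _))
      rw [← smul_eq_mul, ← sum_const]
      exact sum_le_sum fun p hp => (not_le.1 (mem_filter.1 hp).2).le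
    have h2 : ∑ p ∈ range n, ((64 * d) - (sp p).length + ((zp p).length - (sp p).length)) +
        2 * ∑ p ∈ range n, (sp p).length = n * (64 * d) + off n := by
      rw [mul_sum, ← sum_add_distrib]
      have : ∀ p ∈ range n, (64 * d) - (sp p).length + ((zp p).length - (sp p).length) +
          2 * (sp p).length = (64 * d) + (zp p).length := by
        intro p hp
        have := hspm p (mem_range.1 hp)
        have := (hspz p (mem_range.1 hp)).length_le
        omega
      rw [sum_congr rfl this, sum_add_distrib, sum_const, card_range, smul_eq_mul]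
    have h3 : s.length = ∑ p ∈ range n, (sp p).length := by rw [hsp, length_flatMap_range]
    omega
  -- the slot of a good block
  have hslot : ∀ p < n, good p → ∃ q, v q = u p ∧ off p / (64 * d) ≤ q ∧
      q * (64 * d) < off (p + 1) ∧ q < n := by
    intro p hp hg
    have hz1 := (hspz p hp).length_le
    have hs1 := hspm p hp
    simp only [good] at hg
    have hoff : off (p + 1) = off p + (zp p).length := sum_range_succ _ _
    have hoffn : off (p + 1) ≤ off n :=
      sum_le_sum_of_subset (Finset.range_subset_range.2 hp)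
    set o := off p
    set l := (zp p).length with hl
    have hl0 : 0 < l := by omega
    have hm0 : 0 < (64 * d) := by omega
    set q0 := o / (64 * d) with hq0
    set q1 := (o + l - 1) / (64 * d) with hq1
    have hq01 : q0 ≤ q1 := Nat.div_le_div_right (by omega)
    have hq1n : q1 < n := Nat.div_lt_iff_lt_mul hm0 |>.2 (by omega)
    have hq03 : q1 < q0 + 3 := by
      refine Nat.div_lt_iff_lt_mul hm0 |>.2 ?_
      have h1 := Nat.lt_mul_div_succ o hm0
      have e1 : (q0 + 3) * (64 * d) = (64 * d) * (o / (64 * d) + 1) + 2 * (64 * d) := by rw [hq0]; ring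
      omega
    have hbound : ∀ q, q ≤ q1 → q * (64 * d) < o + l := by
      intro q hq
      have h1 := Nat.div_mul_le_self (o + l - 1) (64 * d)
      have h2 := Nat.mul_le_mul_right (64 * d) hq
      rw [hq1] at h2
      omega
    let w : ℕ → Sy := fun i => v (q0 + min i (q1 - q0))
    by_contra hcon
    push Not at hcon
    have hne : ∀ i, w i ≠ u p := by
      intro i h
      have := hcon _ h (Nat.le_add_right _ _)
      have h2 := hbound (q0 + min i (q1 - q0)) (by omega)
      have := this (hoff ▸ h2)
      omega
    have hinfix : zp p <:+: (List.ofFn (cd (w 0)) ++ List.ofFn (cd (w 1)) ++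
        List.ofFn (cd (w 2))) := by
      have hr : q1 - q0 + 1 ≤ 3 := by omega
      have hzy : zp p = ((code cd n v).drop o).take l := by
        rw [hy]
        obtain ⟨r, hr'⟩ : ∃ r, n = p + (r + 1) := ⟨n - p - 1, by omega⟩
        have e : (List.range n).flatMap zp ++ rest = (List.range p).flatMap zp ++
            (zp p ++ (((List.range r).map fun i => p + (i + 1)).flatMap zp ++ rest)) := by
          rw [hr', List.range_add, List.range_succ_eq_map]
          simp [List.flatMap_append, List.map_map, List.flatMap_map]
        rw [e, List.drop_left' (length_flatMap_range zp p), List.take_left' hl.symm]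
      have e3 : List.ofFn (cd (w 0)) ++ List.ofFn (cd (w 1)) ++ List.ofFn (cd (w 2)) =
          code cd 3 w := by simp [code, List.range_succ]
      obtain ⟨r1, hr1⟩ : ∃ r1, n = q0 + (q1 - q0 + 1 + r1) := ⟨n - q1 - 1, by omega⟩
      obtain ⟨r2, hr2⟩ : ∃ r2, 3 = q1 - q0 + 1 + r2 := ⟨3 - (q1 - q0 + 1), by omega⟩
      have hmid : code cd (q1 - q0 + 1) (fun i => v (q0 + i)) = code cd (q1 - q0 + 1) w :=
        code_congr cd fun i hi => by simp [w, Nat.min_eq_left (Nat.le_of_lt_succ hi)]
      have hv : code cd n v = code cd q0 v ++ (code cd (q1 - q0 + 1) w ++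
          code cd r1 (fun i => v (q0 + (q1 - q0 + 1 + i)))) := by
        conv_lhs => rw [hr1]
        rw [code_add, code_add, hmid]
      have hq0m : q0 * (64 * d) ≤ o := Nat.div_mul_le_self o (64 * d)
      have hfit : o - q0 * (64 * d) + l ≤ (q1 - q0 + 1) * (64 * d) := by
        have h1 := Nat.lt_mul_div_succ (o + l - 1) hm0
        have e1 : q0 * (64 * d) + (q1 - q0 + 1) * (64 * d) = (64 * d) * ((o + l - 1) / (64 * d) + 1) := by
          rw [← Nat.add_mul, Nat.mul_comm, hq1]
          congr 1
          omega
        omega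
      rw [e3, show code cd 3 w = code cd (q1 - q0 + 1 + r2) w by rw [← hr2], code_add]
      refine List.IsInfix.trans ?_ (List.prefix_append _ _).isInfix
      rw [hzy, hv, List.drop_append, length_code, List.drop_eq_nil_of_le (by
        rw [length_code]; exact hq0m), List.nil_append, List.drop_append_of_le_length (by
        rw [length_code]; omega), List.take_append_of_le_length (by
        rw [List.length_drop, length_code]; omega)]
      exact (List.take_prefix _ _).isInfix.trans (List.drop_suffix _ _).isInfix
    have := hgood (u p) (w 0) (w 1) (w 2) (hne 0) (hne 1) (hne 2) (zp p) (sp p) hinfix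
      (by omega) (hspz p hp) (hspx p hp)
    omega
  choose g hg1 hg2 hg3 hg4 using hslot
  let keep := (range n).filter fun p => good p ∧ (p = 0 ∨ good (p - 1))
  let M := keep.attach.image fun p : {p // p ∈ keep} =>
    ((p : ℕ), g p (mem_range.1 (mem_filter.1 p.2).1) (mem_filter.1 p.2).2.1)
  have hmono : ∀ p p' (hp : p < n) (hp' : p' < n) (h : good p) (h' : good p'), p < p' →
      g p hp h ≤ g p' hp' h' := by
    intro p p' hp hp' h h' hlt
    have h1 := hg3 p hp h
    have h2 := hg2 p' hp' h'
    have h3 : off (p + 1) ≤ off p' := sum_le_sum_of_subset (Finset.range_subset_range.2 hlt)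
    by_contra hc
    have hm0 : 0 < (64 * d) := by omega
    have h4 : (off p' / (64 * d) + 1) * (64 * d) ≤ g p hp h * (64 * d) := Nat.mul_le_mul_right (64 * d) (by omega)
    have h5 := Nat.lt_mul_div_succ (off p') hm0
    rw [Nat.mul_comm (64 * d)] at h5
    omega
  have hstrict : ∀ p p' (hp : p < n) (hp' : p' < n) (h : good p) (h' : good p')
      (_ : p' = 0 ∨ good (p' - 1)), p < p' → g p hp h < g p' hp' h' := by
    intro p p' hp hp' h h' hprev hlt
    have hgp : good (p' - 1) := hprev.resolve_left (by omega)
    have h1 : p' - 1 < n := by omega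
    have h2 : g p hp h ≤ g (p' - 1) h1 hgp := by
      rcases Nat.lt_or_ge p (p' - 1) with h3 | h3
      · exact hmono _ _ hp h1 h hgp h3
      · obtain rfl : p = p' - 1 := by omega
        exact le_rfl
    refine lt_of_le_of_lt h2 (lt_of_le_of_ne (hmono _ _ h1 hp' hgp h' (by omega)) fun heq => ?_)
    refine hu (p' - 1) (by omega) ?_
    rw [← hg1 (p' - 1) h1 hgp, heq, hg1, show p' - 1 + 1 = p' by omega]
  have hMatch : IsMatching n u v M := by
    refine ⟨fun z hz => ?_, fun z hz w hw => ?_⟩
    · obtain ⟨p, _, rfl⟩ := mem_image.1 hz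
      exact ⟨mem_range.1 (mem_filter.1 p.2).1, hg4 _ _ _, (hg1 _ _ _).symm⟩
    · obtain ⟨⟨p, hp⟩, _, rfl⟩ := mem_image.1 hz
      obtain ⟨⟨p', hp'⟩, _, rfl⟩ := mem_image.1 hw
      simp only [keep, mem_filter, mem_range] at hp hp'
      dsimp only
      constructor
      · exact hstrict p p' hp.1 hp'.1 hp.2.1 hp'.2.1 hp'.2.2
      · intro h
        by_contra hc
        rcases Nat.lt_or_ge p' p with h3 | h3
        · have := hstrict p' p hp'.1 hp.1 hp'.2.1 hp.2.1 hp.2.2 h3
          omega
        · obtain rfl : p = p' := by omega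
          exact lt_irrefl _ h
  have hcard : n ≤ M.card + 2 * bad.card := by
    have h1 : M.card = keep.card := by
      rw [card_image_of_injOn (fun a _ b _ h => Subtype.ext (congrArg Prod.fst h)), card_attach]
    have h2 : range n ⊆ keep ∪ (bad ∪ bad.image (· + 1)) := by
      intro p hp
      simp only [keep, hbad, mem_union, mem_filter, mem_image]
      by_cases hgp : good p
      · by_cases hprev : p = 0 ∨ good (p - 1)
        · exact Or.inl ⟨hp, hgp, hprev⟩
        · rw [not_or] at hprev
          exact Or.inr (Or.inr ⟨p - 1, ⟨mem_range.2 (by have := mem_range.1 hp; omega), hprev.2⟩,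
            by omega⟩)
      · exact Or.inr (Or.inl ⟨hp, hgp⟩)
    have h3 := (card_le_card h2).trans (card_union_le _ _)
    have h4 := card_union_le bad (bad.image (· + 1))
    have h5 : (bad.image (· + 1)).card ≤ bad.card := card_image_le
    rw [card_range] at h3
    omega
  have hfin := hM M hMatch
  have h1 : L * n ≤ L * M.card + L * (2 * bad.card) := by
    rw [← Nat.mul_add]
    exact Nat.mul_le_mul_left L hcard
  calc n * (64 * d) ≤ L * (2 * bad.card) * (64 * d) := Nat.mul_le_mul_right (64 * d) (by omega)
    _ = 128 * L * (bad.card * d) := by ring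
    _ ≤ 128 * L * (2 * k) := Nat.mul_le_mul_left _ hbadk
    _ ≤ 1024 * L * k := by
        calc _ = 256 * L * k := by ring
          _ ≤ _ := by gcongr; norm_num

end Vale.Agent.P238
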