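import Vale.Agent.P238.Defs
import Mathlib.Algebra.BigOperators.Fin
import Mathlib.Algebra.BigOperators.Intervals
import Mathlib.Logic.Equiv.Fintype
import Mathlib.Data.Fintype.BigOperators
import Mathlib.Algebra.Order.BigOperators.Group.Finset
import Mathlib.Algebra.Order.BigOperators.Group.List
import Mathlib.Tactic

/-! Upper bounds on the edit distance of translated hierarchical words (P238, part D). -/

namespace Vale.Agent.P238

open Finset

theorem Reach.trans : ∀ {a b : ℕ} {x y z : List Bool}, Reach a x y → Reach b y z →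
    Reach (a + b) x z
  | 0, b, x, y, z, hxy, hyz => by
    cases hxy
    simpa using hyz
  | a + 1, b, x, y, z, ⟨w, hw, hwy⟩, hyz => by
    rw [Nat.add_right_comm]
    exact ⟨w, hw, Reach.trans hwy hyz⟩

theorem EditStep.append_left {x y : List Bool} (h : EditStep x y) (w : List Bool) :
    EditStep (w ++ x) (w ++ y) := by
  rcases h with ⟨u, v, a, rfl, rfl⟩ | ⟨u, v, a, rfl, rfl⟩ | ⟨u, v, a, b, rfl, rfl⟩
  · exact Or.inl ⟨w ++ u, v, a, by simp, by simp⟩
  · exact Or.inr (Or.inl ⟨w ++ u, v, a, by simp, by simp⟩)
  · exact Or.inr (Or.inr ⟨w ++ u, v, a, b, by simp, by simp⟩)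

theorem EditStep.append_right {x y : List Bool} (h : EditStep x y) (w : List Bool) :
    EditStep (x ++ w) (y ++ w) := by
  rcases h with ⟨u, v, a, rfl, rfl⟩ | ⟨u, v, a, rfl, rfl⟩ | ⟨u, v, a, b, rfl, rfl⟩
  · exact Or.inl ⟨u, v ++ w, a, by simp, by simp⟩
  · exact Or.inr (Or.inl ⟨u, v ++ w, a, by simp, by simp⟩)
  · exact Or.inr (Or.inr ⟨u, v ++ w, a, b, by simp, by simp⟩)

theorem Reach.append_left : ∀ {k : ℕ} {x y : List Bool}, Reach k x y → ∀ w : List Bool,
    Reach k (w ++ x) (w ++ y)
  | 0, x, y, h, w => congrArg (w ++ ·) h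
  | k + 1, x, y, ⟨z, hz, h⟩, w => ⟨w ++ z, hz.append_left w, h.append_left w⟩

theorem Reach.append_right : ∀ {k : ℕ} {x y : List Bool}, Reach k x y → ∀ w : List Bool,
    Reach k (x ++ w) (y ++ w)
  | 0, x, y, h, w => congrArg (· ++ w) h
  | k + 1, x, y, ⟨z, hz, h⟩, w => ⟨z ++ w, hz.append_right w, h.append_right w⟩

theorem reach_delete : ∀ x : List Bool, Reach x.length x []
  | [] => rfl
  | a :: x => ⟨x, Or.inl ⟨[], x, a, rfl, rfl⟩, reach_delete x⟩

theorem reach_insert : ∀ x : List Bool, Reach x.length [] x
  | [] => rfl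
  | a :: x => by
    have h : Reach 1 x (a :: x) := ⟨a :: x, Or.inr (Or.inl ⟨[], x, a, rfl, rfl⟩), rfl⟩
    exact (reach_insert x).trans h

theorem reach_total (x y : List Bool) : Reach (x.length + y.length) x y :=
  (reach_delete x).trans (reach_insert y)

theorem reach_ED (x y : List Bool) : Reach (ED x y) x y :=
  Nat.sInf_mem (s := {k | Reach k x y}) ⟨_, reach_total x y⟩

theorem ED_le {k : ℕ} {x y : List Bool} (h : Reach k x y) : ED x y ≤ k := Nat.sInf_le h

theorem ED_self (x : List Bool) : ED x x = 0 :=
  Nat.le_zero.1 (ED_le (show Reach 0 x x from rfl))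

theorem ED_le_length (x y : List Bool) : ED x y ≤ x.length + y.length :=
  ED_le (reach_total x y)

theorem ED_triangle (x y z : List Bool) : ED x z ≤ ED x y + ED y z :=
  ED_le ((reach_ED x y).trans (reach_ED y z))

theorem ED_append (x x' y y' : List Bool) : ED (x ++ x') (y ++ y') ≤ ED x y + ED x' y' :=
  ED_le (((reach_ED x y).append_right x').trans ((reach_ED x' y').append_left y))

section code

variable {Sy : Type*} {m : ℕ} (cd : Sy → Fin m → Bool)

theorem code_add (n n' : ℕ) (u : ℕ → Sy) :
    code cd (n + n') u = code cd n u ++ code cd n' (fun p => u (n + p)) := by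
  simp [code, List.range_add, List.flatMap_map]

theorem code_congr {n : ℕ} {u v : ℕ → Sy} (h : ∀ p < n, u p = v p) :
    code cd n u = code cd n v := by
  simp only [code]
  apply List.flatMap_congr
  intro p hp
  rw [h p (List.mem_range.1 hp)]

theorem length_code (n : ℕ) (u : ℕ → Sy) : (code cd n u).length = n * m := by
  induction n with
  | zero => simp [code]
  | succ n ih =>
    rw [code_add, List.length_append, ih]
    simp [code, Nat.succ_mul]

theorem ED_code_le [DecidableEq Sy] (n : ℕ) (u v : ℕ → Sy) :
    ED (code cd n u) (code cd n v) ≤ 2 * m * ((range n).filter fun p => u p ≠ v p).card := by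
  induction n with
  | zero => simp [code, ED_self]
  | succ n ih =>
    rw [code_add, code_add]
    refine (ED_append _ _ _ _).trans ?_
    rw [range_add_one, filter_insert]
    by_cases h : u n = v n
    · have h0 : code cd 1 (fun p => u (n + p)) = code cd 1 (fun p => v (n + p)) :=
        code_congr cd fun p hp => by
          obtain rfl : p = 0 := by omega
          simpa using h
      rw [h0, ED_self, if_neg (by simp [h])]
      simpa using ih
    · rw [if_pos h, card_insert_of_notMem (by simp)]
      have h1 := ED_le_length (code cd 1 fun p => u (n + p)) (code cd 1 fun p => v (n + p))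
      rw [length_code, length_code] at h1
      rw [Nat.mul_succ]
      omega

/-- Shifting by `A` symbols costs at most `2 m A` edits. -/
theorem ED_code_shift (n A : ℕ) (u v : ℕ → Sy) (hA : A ≤ n)
    (h : ∀ p, p + A < n → v p = u (p + A)) :
    ED (code cd n v) (code cd n u) ≤ 2 * m * A := by
  obtain ⟨r, rfl⟩ : ∃ r, n = A + r := ⟨n - A, by omega⟩
  have hu := code_add cd A r u
  have hv : code cd (A + r) v = code cd r v ++ code cd A (fun p => v (r + p)) := by
    rw [Nat.add_comm A r, code_add]
  have hmid : code cd r v = code cd r (fun p => u (A + p)) :=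
    code_congr cd fun p hp => by rw [h p (by omega), Nat.add_comm]
  rw [hu, hv, hmid]
  set M := code cd r (fun p => u (A + p))
  set U := code cd A u
  set V := code cd A (fun p => v (r + p))
  calc ED (M ++ V) (U ++ M) ≤ ED (M ++ V) M + ED M (U ++ M) := ED_triangle _ _ _
    _ ≤ V.length + U.length := by
        have h1 : ED (M ++ V) M ≤ V.length := by
          simpa using ED_le ((reach_delete V).append_left M)
        have h2 : ED M (U ++ M) ≤ U.length := by
          simpa using ED_le ((reach_insert U).append_right M)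
        omega
    _ = 2 * m * A := by
        simp only [U, V, length_code]
        ring

theorem ED_code_blocks (a b : ℕ) (u v : ℕ → Sy) :
    ED (code cd (a * b) u) (code cd (a * b) v) ≤
      ∑ t ∈ range a, ED (code cd b fun p => u (t * b + p)) (code cd b fun p => v (t * b + p)) := by
  induction a with
  | zero => simp [code, ED_self]
  | succ a ih =>
    rw [Nat.succ_mul, code_add, code_add, sum_range_succ]
    exact (ED_append _ _ _ _).trans (Nat.add_le_add_right ih _)

end code

section slots

variable {Q N : ℕ} [NeZero N] {E : ℕ} {a : Fin N → ZMod Q}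

theorem nSlots_succ (N E l : ℕ) : nSlots N E (l + 1) = E * N * nSlots N E l := by
  simp [nSlots, pow_succ, Nat.mul_comm]

theorem nSlots_pos {N E : ℕ} (hN : 0 < N) (hE : 0 < E) (l : ℕ) : 0 < nSlots N E l :=
  Nat.pow_pos (Nat.mul_pos hE hN)

variable (E a) in
/-- The translation accumulated at slot `p`. -/
def off (l p : ℕ) : ZMod Q := (slot E a l 0 p).2

variable (E a) in
/-- The leaf at slot `p`. -/
def lab (l p : ℕ) : J N l := (slot E a l 0 p).1

/-- The recursion for `slot`, at given repetition and child. -/
theorem slot_succ (l : ℕ) (φ : J N (l + 1) → ZMod Q) (p e : ℕ) (i : Fin N)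
    (hi : p / nSlots N E l % N = i) (he : p / (N * nSlots N E l) = e) :
    slot E a (l + 1) φ p =
      (Fin.cons i (slot E a l (fun j => φ (Fin.cons i j) + (e : ZMod Q) * a i)
          (p % nSlots N E l)).1,
        (slot E a l (fun j => φ (Fin.cons i j) + (e : ZMod Q) * a i) (p % nSlots N E l)).2) := by
  have h : (⟨p / nSlots N E l % N, Nat.mod_lt _ (NeZero.pos N)⟩ : Fin N) = i := Fin.ext hi
  subst he
  subst h
  rfl

theorem slot_eq : ∀ (l : ℕ) (φ : J N l → ZMod Q) (p : ℕ),
    slot E a l φ p = (lab E a l p, φ (lab E a l p) + off E a l p)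
  | 0, φ, p => by simp [slot, lab, off]
  | l + 1, φ, p => by
    set i : Fin N := ⟨p / nSlots N E l % N, Nat.mod_lt _ (NeZero.pos N)⟩ with hi
    set e := p / (N * nSlots N E l) with he
    simp only [lab, off]
    rw [slot_succ l φ p e i rfl rfl, slot_succ l 0 p e i rfl rfl,
      slot_eq l (fun j => φ (Fin.cons i j) + (e : ZMod Q) * a i),
      slot_eq l (fun j => (0 : J N (l + 1) → ZMod Q) (Fin.cons i j) + (e : ZMod Q) * a i)]
    simp only [Pi.zero_apply, zero_add]
    exact congrArg _ (add_assoc _ _ _)

theorem slot_child (l : ℕ) (φ : J N (l + 1) → ZMod Q) (e : ℕ) (i : Fin N) (r : ℕ)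
    (hr : r < nSlots N E l) :
    slot E a (l + 1) φ ((e * N + i) * nSlots N E l + r) =
      (Fin.cons i (slot E a l (fun j => φ (Fin.cons i j) + (e : ZMod Q) * a i) r).1,
        (slot E a l (fun j => φ (Fin.cons i j) + (e : ZMod Q) * a i) r).2) := by
  set c := nSlots N E l with hc
  have hc0 : 0 < c := by omega
  have h1 : ((e * N + (i : ℕ)) * c + r) / c = e * N + i := by
    rw [Nat.add_comm, Nat.mul_comm, Nat.add_mul_div_left _ _ hc0, Nat.div_eq_of_lt hr, zero_add]
  have h2 : ((e * N + (i : ℕ)) * c + r) / c % N = i := by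
    rw [h1, Nat.add_comm, Nat.add_mul_mod_self_right, Nat.mod_eq_of_lt i.isLt]
  have h3 : ((e * N + (i : ℕ)) * c + r) / (N * c) = e := by
    rw [Nat.mul_comm N c, ← Nat.div_div_eq_div_mul, h1, Nat.add_comm,
      Nat.add_mul_div_right _ _ (NeZero.pos N), Nat.div_eq_of_lt i.isLt, zero_add]
  have h4 : ((e * N + (i : ℕ)) * c + r) % c = r := by
    rw [Nat.add_comm, Nat.add_mul_mod_self_right, Nat.mod_eq_of_lt hr]
  rw [slot_succ l φ _ e i (hc ▸ h2) (hc ▸ h3), ← hc, h4]

/-- The shift by one repetition. -/
theorem slot_shift (l : ℕ) (φ : J N (l + 1) → ZMod Q) (p : ℕ) (hc : 0 < nSlots N E l) :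
    slot E a (l + 1) (fun j => φ j + a (j 0)) p =
      slot E a (l + 1) φ (p + N * nSlots N E l) := by
  set c := nSlots N E l
  have h1 : (p + N * c) / c = p / c + N := Nat.add_mul_div_right _ _ hc
  have h2 : (p + N * c) / c % N = p / c % N := by rw [h1, Nat.add_mod_right]
  have h3 : (p + N * c) / (N * c) = p / (N * c) + 1 :=
    Nat.add_div_right _ (Nat.mul_pos (NeZero.pos N) hc)
  have h4 : (p + N * c) % c = p % c := Nat.add_mul_mod_self_right p N c
  rw [slot_succ l φ (p + N * c) (p / (N * c) + 1)
      ⟨p / c % N, Nat.mod_lt _ (NeZero.pos N)⟩ h2 h3,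
    slot_succ l _ p (p / (N * c)) ⟨p / c % N, Nat.mod_lt _ (NeZero.pos N)⟩ rfl rfl, h4]
  have hf : ∀ i : Fin N,
      (fun j : J N l => φ (Fin.cons i j) + a ((Fin.cons i j : J N (l + 1)) 0) +
        ((p / (N * c) : ℕ) : ZMod Q) * a i) =
      fun j : J N l => φ (Fin.cons i j) + ((p / (N * c) + 1 : ℕ) : ZMod Q) * a i := by
    intro i
    funext j
    simp only [Fin.cons_zero]
    push_cast
    ring
  rw [hf]

/-- The leaf at neighbouring slots differs. -/
theorem lab_ne_succ (hN : 2 ≤ N) (hE : 0 < E) : ∀ (l p : ℕ), p + 1 < nSlots N E l →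
    lab E a l p ≠ lab E a l (p + 1)
  | 0, p, h => by simp [nSlots] at h
  | l + 1, p, h => by
    intro heq
    simp only [lab] at heq
    rw [slot_succ l _ p _ ⟨p / nSlots N E l % N, Nat.mod_lt _ (NeZero.pos N)⟩ rfl rfl,
      slot_succ l _ (p + 1) _ ⟨(p + 1) / nSlots N E l % N, Nat.mod_lt _ (NeZero.pos N)⟩ rfl rfl,
      slot_eq l, slot_eq l] at heq
    dsimp only at heq
    obtain ⟨hi, hr⟩ := Fin.cons_inj.1 heq
    have hi' := congrArg Fin.val hi
    simp only at hi'
    set c := nSlots N E l with hc
    have hc0 : 0 < c := nSlots_pos (by omega) hE l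
    rcases Nat.lt_or_ge (p % c + 1) c with h1 | h1
    · have hm : (p + 1) % c = p % c + 1 := by
        rw [Nat.add_mod]
        rcases Nat.lt_or_ge 1 c with h2 | h2
        · rw [Nat.mod_eq_of_lt h2, Nat.mod_eq_of_lt h1]
        · omega
      rw [hm] at hr
      exact lab_ne_succ hN hE l (p % c) (hc ▸ h1) hr
    · have hp := Nat.mod_lt p hc0
      have hd : (p + 1) / c = p / c + 1 := by
        have := Nat.div_add_mod p c
        rw [show p + 1 = c * (p / c + 1) by rw [Nat.mul_succ]; omega,
          Nat.mul_div_cancel_left _ hc0]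
      rw [hd] at hi'
      have hk := Nat.mod_lt (p / c) (NeZero.pos N)
      rcases Nat.lt_or_ge (p / c % N + 1) N with h2 | h2
      · rw [Nat.add_mod, Nat.mod_eq_of_lt (by omega : 1 < N), Nat.mod_eq_of_lt h2] at hi'
        omega
      · rw [Nat.add_mod, Nat.mod_eq_of_lt (by omega : 1 < N),
          show p / c % N + 1 = N by omega, Nat.mod_self] at hi'
        omega

end slots

section costs

variable {Q N : ℕ} [NeZero N] [NeZero Q] {q : ℕ} [NeZero q] {E : ℕ} {a : Fin N → ZMod Q}
  {m : ℕ}

variable (q E a) in
/-- The word of a level-`l` block. -/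
def word (l : ℕ) (cd : J N l × Fin q → Fin m → Bool) (φ : J N l → ZMod Q) : List Bool :=
  code cd (nSlots N E l) (symb q E a l φ)

theorem symb_eq (l : ℕ) (φ : J N l → ZMod Q) (p : ℕ) :
    symb q E a l φ p = (lab E a l p, bin q (φ (lab E a l p) + off E a l p)) := by
  simp [symb, slot_eq]

/-- Changing the phase of one leaf only touches its slots. -/
theorem ED_resample (l : ℕ) (cd : J N l × Fin q → Fin m → Bool) (φ ψ : J N l → ZMod Q) (j : J N l)
    (h : ∀ i, i ≠ j → φ i = ψ i) :
    ED (word q E a l cd φ) (word q E a l cd ψ) ≤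
      2 * m * ((range (nSlots N E l)).filter fun p => lab E a l p = j).card := by
  classical
  refine (ED_code_le cd _ _ _).trans (Nat.mul_le_mul_left _ (card_le_card ?_))
  intro p hp
  simp only [mem_filter] at hp ⊢
  refine ⟨hp.1, ?_⟩
  by_contra hne
  exact hp.2 (by rw [symb_eq, symb_eq, h _ hne])

theorem bin_changed (δ : ℕ) :
    (univ.filter fun v : ZMod Q => bin q (v + (δ : ZMod Q)) ≠ bin q v).card ≤ q * δ := by
  classical
  have hq := NeZero.pos q
  have hQ := NeZero.pos Q
  let bnd : ℕ → ℕ := fun t => ((t + 1) * Q + (q - 1)) / q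
  have key : ∀ v : ZMod Q, bin q (v + (δ : ZMod Q)) ≠ bin q v →
      v.val < bnd (bin q v) ∧ bnd (bin q v) ≤ v.val + δ := by
    intro v hv
    have e1 : (bin q v : ℕ) = v.val * q / Q := rfl
    have hlt : v.val * q < ((bin q v : ℕ) + 1) * Q := by
      rw [e1]
      exact Nat.lt_mul_div_succ _ hQ |>.trans_le (le_of_eq (Nat.mul_comm _ _))
    refine ⟨?_, ?_⟩
    · apply (Nat.le_div_iff_mul_le hq).2
      rw [Nat.succ_mul]
      omega
    · by_contra hcon
      push Not at hcon
      have h2 : (v.val + δ + 1) * q ≤ ((bin q v : ℕ) + 1) * Q + (q - 1) :=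
        (Nat.le_div_iff_mul_le hq).1 hcon
      rw [Nat.succ_mul] at h2
      have h3 : (v.val + δ) * q < ((bin q v : ℕ) + 1) * Q := by omega
      have h4 : v.val + δ < Q := by
        have hb : (bin q v : ℕ) + 1 ≤ q := (bin q v).isLt
        exact Nat.lt_of_mul_lt_mul_right
          (h3.trans_le ((Nat.mul_le_mul_right Q hb).trans (le_of_eq (Nat.mul_comm _ _))))
      have h5 : (v + (δ : ZMod Q)).val = v.val + δ := by
        have hd : ((δ : ZMod Q)).val = δ := ZMod.val_natCast_of_lt (by omega)
        rw [ZMod.val_add_of_lt (by rw [hd]; exact h4), hd]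
      refine hv (Fin.ext ?_)
      show (v + (δ : ZMod Q)).val * q / Q = v.val * q / Q
      rw [h5]
      refine Nat.div_eq_of_lt_le ?_ ?_
      · calc v.val * q / Q * Q ≤ v.val * q := Nat.div_mul_le_self _ _
          _ ≤ (v.val + δ) * q := Nat.mul_le_mul_right _ (Nat.le_add_right _ _)
      · rw [← e1]
        exact h3
  have hinj : Set.InjOn (fun v : ZMod Q => (bin q v, bnd (bin q v) - v.val))
      (univ.filter fun v : ZMod Q => bin q (v + (δ : ZMod Q)) ≠ bin q v : Finset _) := by
    intro v hv w hw hvw
    simp only [coe_filter, mem_univ, true_and, Set.mem_ofPred_eq] at hv hw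
    simp only [Prod.mk.injEq] at hvw
    have := key v hv
    have := key w hw
    refine ZMod.val_injective Q ?_
    have h := hvw.2
    rw [hvw.1] at *
    omega
  calc _ ≤ ((univ : Finset (Fin q)) ×ˢ Icc 1 δ).card := by
        refine card_le_card_of_injOn _ ?_ hinj
        intro v hv
        simp only [coe_filter, mem_univ, true_and, Set.mem_ofPred_eq] at hv
        have := key v hv
        simp only [coe_product, Set.mem_prod, coe_univ, Set.mem_univ, coe_Icc, Set.mem_Icc,
          true_and]
        omega
    _ = q * δ := by simp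

/-- Averaged over the phases, a translation by `δ` changes each slot with frequency `q δ / Q`. -/
theorem ED_translate (l : ℕ) (cd : J N l × Fin q → Fin m → Bool) (j : J N l) (δ : ℕ) :
    Q * ∑ φ : J N l → ZMod Q,
      ED (word q E a l cd (φ + Pi.single j (δ : ZMod Q))) (word q E a l cd φ) ≤
      2 * m * (q * δ) * Fintype.card (J N l → ZMod Q) *
        ((range (nSlots N E l)).filter fun p => lab E a l p = j).card := by
  classical
  set T := (range (nSlots N E l)).filter fun p => lab E a l p = j
  have h1 : ∀ φ : J N l → ZMod Q,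
      ED (word q E a l cd (φ + Pi.single j (δ : ZMod Q))) (word q E a l cd φ) ≤
        2 * m * ∑ p ∈ T, if bin q (φ j + off E a l p + (δ : ZMod Q)) ≠ bin q (φ j + off E a l p)
          then 1 else 0 := by
    intro φ
    refine (ED_code_le cd _ _ _).trans (Nat.mul_le_mul_left _ ?_)
    rw [← card_filter]
    refine card_le_card ?_
    intro p hp
    simp only [mem_filter, T] at hp ⊢
    have hne := hp.2
    rw [symb_eq, symb_eq] at hne
    have hl : lab E a l p = j := by
      by_contra hne'
      exact hne (by simp [hne'])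
    refine ⟨⟨hp.1, hl⟩, fun heq => hne ?_⟩
    rw [hl, Pi.add_apply, Pi.single_eq_same, add_right_comm, heq]
  have h2 : ∀ p : ℕ, Q * ∑ φ : J N l → ZMod Q,
      (if bin q (φ j + off E a l p + (δ : ZMod Q)) ≠ bin q (φ j + off E a l p)
        then 1 else 0) ≤ q * δ * Fintype.card (J N l → ZMod Q) := by
    intro p
    rw [← (Equiv.funSplitAt j (ZMod Q)).symm.sum_comp, Fintype.sum_prod_type]
    simp only [Equiv.funSplitAt_symm_apply, ↓reduceDIte, sum_const, card_univ, smul_eq_mul]
    rw [← mul_sum, Fintype.card_congr (Equiv.funSplitAt j (ZMod Q)), Fintype.card_prod, ZMod.card]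
    have hb : (∑ v : ZMod Q,
        if bin q (v + off E a l p + (δ : ZMod Q)) ≠ bin q (v + off E a l p) then 1 else 0) ≤
          q * δ := by
      refine (Equiv.sum_comp (Equiv.addRight (off E a l p))
        (fun v : ZMod Q => if bin q (v + (δ : ZMod Q)) ≠ bin q v then 1 else 0)).trans_le ?_
      rw [← card_filter]
      exact bin_changed δ
    calc Q * (_ * _) ≤ Q * (Fintype.card ({i // i ≠ j} → ZMod Q) * (q * δ)) :=
          Nat.mul_le_mul_left _ (Nat.mul_le_mul_left _ hb)
      _ = _ := by ring
  calc Q * _ ≤ Q * ∑ φ : J N l → ZMod Q, 2 * m * ∑ p ∈ T,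
        (if bin q (φ j + off E a l p + (δ : ZMod Q)) ≠ bin q (φ j + off E a l p)
          then 1 else 0) := Nat.mul_le_mul_left _ (sum_le_sum fun φ _ => h1 φ)
    _ = 2 * m * ∑ p ∈ T, Q * ∑ φ : J N l → ZMod Q,
        (if bin q (φ j + off E a l p + (δ : ZMod Q)) ≠ bin q (φ j + off E a l p)
          then 1 else 0) := by
        rw [← mul_sum, sum_comm, ← mul_sum]
        ring
    _ ≤ 2 * m * ∑ _p ∈ T, q * δ * Fintype.card (J N l → ZMod Q) :=
        Nat.mul_le_mul_left _ (sum_le_sum fun p _ => h2 p)
    _ = _ := by
        rw [sum_const, smul_eq_mul]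
        ring

omit [NeZero Q] in
theorem sum_fibres (l : ℕ) :
    ∑ j : J N l, ((range (nSlots N E l)).filter fun p => lab E a l p = j).card =
      nSlots N E l := by
  rw [← card_eq_sum_card_fiberwise (fun p _ => mem_univ (lab E a l p)), card_range]

/-- All block shifts together cost at most `2 l / E` of the word length. -/
theorem ED_gens (hE : 0 < E) : ∀ (l : ℕ) {m : ℕ} (cd : J N l × Fin q → Fin m → Bool)
    (φ : J N l → ZMod Q),
    E * ((gens a l).map fun g => ED (word q E a l cd (φ + g)) (word q E a l cd φ)).sum ≤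
      2 * m * l * nSlots N E l
  | 0, m, cd, φ => by simp [gens]
  | l + 1, m, cd, φ => by
    classical
    set c := nSlots N E l with hc
    have hc0 : 0 < c := nSlots_pos (NeZero.pos N) hE l
    let cd' : Fin N → J N l × Fin q → Fin m → Bool := fun i s => cd (Fin.cons i s.1, s.2)
    let sub : ℕ → Fin N → (J N (l + 1) → ZMod Q) → J N l → ZMod Q :=
      fun e i φ j => φ (Fin.cons i j) + (e : ZMod Q) * a i
    have hblock : ∀ (φ : J N (l + 1) → ZMod Q) (e : ℕ) (i : Fin N),
        code cd c (fun p => symb q E a (l + 1) φ ((e * N + i) * c + p)) =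
          word q E a l (cd' i) (sub e i φ) := by
      intro φ e i
      simp only [word, code, ← hc]
      apply List.flatMap_congr
      intro p hp
      congr 1
      show cd _ = cd _
      congr 1
      simp only [symb]
      rw [slot_child l φ e i p (List.mem_range.1 hp)]
    have htop : E * ED (word q E a (l + 1) cd (φ + fun j => a (j 0)))
        (word q E a (l + 1) cd φ) ≤ 2 * m * nSlots N E (l + 1) := by
      have h := ED_code_shift cd (nSlots N E (l + 1)) (N * c) (symb q E a (l + 1) φ)
        (symb q E a (l + 1) (φ + fun j => a (j 0)))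
        (by rw [nSlots_succ, ← hc, Nat.mul_assoc]; exact Nat.le_mul_of_pos_left _ hE)
        (fun p _ => by
          simp only [symb]
          rw [show (φ + fun j : J N (l + 1) => a (j 0)) = fun j => φ j + a (j 0) from rfl,
            slot_shift l φ p hc0])
      refine (Nat.mul_le_mul_left E h).trans (le_of_eq ?_)
      rw [nSlots_succ]
      ring
    let emb : Fin N → (J N l → ZMod Q) → J N (l + 1) → ZMod Q :=
      fun i g j => if j 0 = i then g (Fin.tail j) else 0
    have hinner : ∀ (i : Fin N) (g : J N l → ZMod Q),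
        ED (word q E a (l + 1) cd (φ + emb i g)) (word q E a (l + 1) cd φ) ≤
          ∑ e ∈ range E,
            ED (word q E a l (cd' i) (sub e i φ + g)) (word q E a l (cd' i) (sub e i φ)) := by
      intro i g
      simp only [word, nSlots_succ, ← hc]
      refine (ED_code_blocks cd (E * N) c _ _).trans ?_
      have hsplit : ∀ f : ℕ → ℕ,
          ∑ t ∈ range (E * N), f t = ∑ e ∈ range E, ∑ i' : Fin N, f (e * N + i') := by
        intro f
        clear * - f
        induction E with
        | zero => simp
        | succ E ih =>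
          rw [Nat.succ_mul, sum_range_add, ih, sum_range_succ,
            Fin.sum_univ_eq_sum_range (fun i => f (E * N + i)) N]
      rw [hsplit]
      refine sum_le_sum fun e _ => ?_
      rw [Finset.sum_eq_single i]
      · refine le_of_eq ?_
        rw [hblock, hblock]
        have hs : sub e i (φ + emb i g) = sub e i φ + g := by
          funext j
          simp [sub, emb, add_right_comm]
        simp only [word, hs, ← hc]
      · intro i' _ hne
        rw [hblock, hblock]
        have hs : sub e i' (φ + emb i g) = sub e i' φ := by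
          funext j
          simp [sub, emb, hne]
        rw [hs, ED_self]
      · simp
    rw [gens, List.map_cons, List.sum_cons, Nat.mul_add, List.map_flatMap]
    have hrest : E * (((List.finRange N).flatMap fun i =>
        ((gens a l).map (emb i)).map fun g =>
          ED (word q E a (l + 1) cd (φ + g)) (word q E a (l + 1) cd φ))).sum ≤
        2 * m * l * nSlots N E (l + 1) := by
      rw [List.flatMap_def, List.sum_flatten, List.map_map, ← List.ofFn_eq_map,
        List.sum_ofFn, mul_sum]
      have hi : ∀ i : Fin N, E * ((gens a l).map fun g =>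
          ED (word q E a (l + 1) cd (φ + emb i g)) (word q E a (l + 1) cd φ)).sum ≤
          E * (2 * m * l * c) := by
        intro i
        calc _ ≤ E * ((gens a l).map fun g => ∑ e ∈ range E,
              ED (word q E a l (cd' i) (sub e i φ + g))
                (word q E a l (cd' i) (sub e i φ))).sum :=
              Nat.mul_le_mul_left E (List.sum_le_sum fun g _ => hinner i g)
          _ = ∑ e ∈ range E, E * ((gens a l).map fun g =>
              ED (word q E a l (cd' i) (sub e i φ + g))
                (word q E a l (cd' i) (sub e i φ))).sum := by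
              rw [← mul_sum]
              congr 1
              generalize gens a l = L
              induction L with
              | nil => simp
              | cons g L ih => simp [ih, sum_add_distrib]
          _ ≤ ∑ _e ∈ range E, 2 * m * l * c :=
              sum_le_sum fun e _ => ED_gens hE l (cd' i) (sub e i φ)
          _ = E * (2 * m * l * c) := by simp
      calc _ ≤ ∑ _i : Fin N, E * (2 * m * l * c) := by
            refine sum_le_sum fun i _ => ?_
            simpa [Function.comp_def] using hi i
        _ = 2 * m * l * nSlots N E (l + 1) := by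
            simp [nSlots_succ, ← hc]
            ring
    refine (Nat.add_le_add htop hrest).trans (le_of_eq ?_)
    ring

end costs

end Vale.Agent.P238
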