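import Vale.Agent.P238.Defs
import Mathlib

/-!
P238: existence of the translations, the key property of a character, and the matching bound.
-/

open Finset

namespace Vale.Agent.P238

variable {Q N : ℕ}

lemma nrm_neg (v : ZMod Q) : nrm (-v) = nrm v := ZMod.natAbs_valMinAbs_neg v

lemma nrm_add_le (v w : ZMod Q) : nrm (v + w) ≤ nrm v + nrm w :=
  (ZMod.natAbs_valMinAbs_add_le v w).trans (Int.natAbs_add_le _ _)

lemma nrm_intCast_le [NeZero Q] (x : ℤ) : nrm (x : ZMod Q) ≤ x.natAbs := by
  rcases le_or_gt x.natAbs (Q / 2) with h | h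
  · exact ZMod.natAbs_min_of_le_div_two Q _ _ (by rw [ZMod.coe_valMinAbs])
      (ZMod.natAbs_valMinAbs_le _)
  · exact (ZMod.natAbs_valMinAbs_le _).trans h.le

lemma card_nrm_le [NeZero Q] (m : ℕ) :
    (univ.filter fun v : ZMod Q => nrm v ≤ m).card ≤ 2 * m + 1 := by
  calc (univ.filter fun v : ZMod Q => nrm v ≤ m).card
      ≤ (Icc (-(m : ℤ)) m).card := by
        refine card_le_card_of_injOn ZMod.valMinAbs (fun v hv => ?_)
          ZMod.injective_valMinAbs.injOn
        have hv' : v.valMinAbs.natAbs ≤ m := (mem_filter.1 hv).2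
        simp only [coe_Icc, Set.mem_Icc]
        omega
    _ = 2 * m + 1 := by simp; omega

lemma card_pi_ite [NeZero Q] (s : Finset (Fin N)) (B : Fin N → Finset (ZMod Q)) (m : ℕ)
    (hB : ∀ i ∈ s, (B i).card ≤ m) :
    (Fintype.piFinset fun i => if i ∈ s then B i else univ).card ≤ m ^ s.card * Q ^ (N - s.card) := by
  rw [Fintype.card_piFinset, ← prod_mul_prod_compl s]
  refine Nat.mul_le_mul ?_ ?_
  · rw [← prod_const]
    exact prod_le_prod' fun i hi => by simpa [hi] using hB i hi
  · refine le_of_eq ?_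
    rw [prod_congr rfl (g := fun _ => Q) fun i hi => by simp [mem_compl.1 hi], prod_const,
      card_compl, Fintype.card_fin]

/-- The assignments with a small value of a nonzero linear form. -/
lemma card_linear_le [Fact Q.Prime] (h : Fin N → ZMod Q) (hh : h ≠ 0) (B : Finset (ZMod Q)) :
    (univ.filter fun a : Fin N → ZMod Q => ∑ i, h i * a i ∈ B).card ≤ B.card * Q ^ (N - 1) := by
  obtain ⟨i0, hi0⟩ := Function.ne_iff.1 hh
  refine (card_le_card_of_injOn (fun a => Function.update a i0 (∑ i, h i * a i)) ?_ ?_).trans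
    (le_of_le_of_eq (card_pi_ite {i0} (fun _ => B) B.card fun _ _ => le_rfl) (by simp))
  · intro a ha
    simp only [coe_filter, mem_univ, true_and, Set.mem_ofPred_eq] at ha
    simp only [Fintype.mem_piFinset, mem_coe, mem_singleton]
    intro i
    rcases eq_or_ne i i0 with rfl | hi
    · simpa using ha
    · simp [hi]
  · intro a _ a' _ e
    have hoff : ∀ i, i ≠ i0 → a i = a' i := fun i hi => by simpa [hi] using congrFun e i
    have h1 : ∑ i, h i * a i = ∑ i, h i * a' i := by simpa using congrFun e i0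
    rw [← sub_eq_zero, ← sum_sub_distrib, sum_eq_single i0
      (fun i _ hi => by rw [hoff i hi, sub_self]) (by simp), sub_eq_zero] at h1
    funext i
    rcases eq_or_ne i i0 with rfl | hi
    · exact mul_left_cancel₀ hi0 h1
    · exact hoff i hi

/-- A vector from a list of at most `b` of its entries. -/
lemma exists_sparse_code {b H : ℕ} : ∃ D : Finset (Fin N → ℤ), D.card ≤ (N * (2 * H + 1)) ^ b ∧
    ∀ h : Fin N → ℤ, h ≠ 0 → (univ.filter fun i => h i ≠ 0).card ≤ b →
      (∀ i, (h i).natAbs ≤ H) → h ∈ D := by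
  classical
  let dec : (Fin b → Fin N × ℤ) → Fin N → ℤ := fun t i =>
    if hk : ∃ k, (t k).1 = i then (t hk.choose).2 else 0
  refine ⟨(Fintype.piFinset fun _ : Fin b => univ ×ˢ Icc (-(H : ℤ)) H).image dec,
    card_image_le.trans (le_of_eq ?_), fun h hh hb hH => ?_⟩
  · have : ((H : ℤ) + 1 + H).toNat = 2 * H + 1 := by omega
    simp [this]
  · set s := univ.filter fun i => h i ≠ 0
    obtain ⟨i0, hi0⟩ := Function.ne_iff.1 hh
    have : Nonempty s := ⟨⟨i0, by simpa [s] using hi0⟩⟩
    obtain ⟨em⟩ := Function.Embedding.nonempty_of_card_le (α := s) (β := Fin b) (by simpa using hb)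
    let σ : Fin b → Fin N := fun k => (Function.invFun em k).1
    refine mem_image.2 ⟨fun k => (σ k, h (σ k)), ?_, funext fun i => ?_⟩
    · simp only [Fintype.mem_piFinset, mem_product, mem_univ, true_and, mem_Icc]
      exact fun k => by have := hH (σ k); omega
    · by_cases hk : ∃ k, σ k = i
      · have e : dec (fun k => (σ k, h (σ k))) i = h (σ hk.choose) := by simp only [dec, dif_pos hk]
        rw [e, hk.choose_spec]
      · simp only [dec, dif_neg hk]
        by_contra hne
        exact hk ⟨em ⟨i, by simpa [s] using Ne.symm hne⟩,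
          congrArg Subtype.val (Function.leftInverse_invFun em.injective _)⟩

lemma exists_design (N H S E Q : ℕ) [NeZero N] [Fact Q.Prime]
    (hQ : 2 ^ 16 ≤ Q ∧ S ≤ Q ∧ E ≤ Q) (h1 : 8 * (2 * N * (2 * H + 1)) ^ 16 ≤ S)
    (h2 : 2 ^ 16 * E ^ 2 * 2 ^ N ≤ 2 ^ (8 * (N / 4))) :
    ∃ a : Fin N → ZMod Q, Design 16 H S E (Q / 2 ^ 13 + 1) a := by
  classical
  have hN : 0 < N := NeZero.pos N
  have hQ0 : 0 < Q := lt_of_lt_of_le (by positivity) hQ.1
  have : NeZero Q := ⟨hQ0.ne'⟩
  set r := Q / 2 ^ 13 + 1 with hr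
  set k := N / 4 + 1 with hk
  obtain ⟨D, hDc, hD⟩ := exists_sparse_code (N := N) (b := 16) (H := H)
  -- few translations with a small sparse combination
  let bad1 : Finset (Fin N → ZMod Q) := D.biUnion fun h =>
    if (fun i => (h i : ZMod Q)) = 0 then ∅
    else univ.filter fun a => ∑ i, (h i : ZMod Q) * a i ∈ univ.filter fun v => nrm v ≤ Q / S
  -- few translations with many near coordinates
  let bad2 : Finset (Fin N → ZMod Q) :=
    (((range E ×ˢ range E).filter fun p => p.1 ≠ p.2) ×ˢ
      (range (2 ^ 13) ×ˢ (univ : Finset (Fin N)).powersetCard k)).biUnion fun w =>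
        Fintype.piFinset fun i => if i ∈ w.2.2 then univ.filter (fun x =>
          nrm (((w.2.1 * r : ℕ) : ZMod Q) + ((w.1.1 : ZMod Q) - (w.1.2 : ZMod Q)) * x) ≤ 2 * r)
          else univ
  have hS0 : 0 < S := lt_of_lt_of_le (by positivity) h1
  have hHQ : H < Q := by
    have : H < 8 * (2 * N * (2 * H + 1)) ^ 16 := by
      have h3 : 2 * H + 1 ≤ 2 * N * (2 * H + 1) := Nat.le_mul_of_pos_left _ (by omega)
      have h4 := Nat.le_self_pow (show (16 : ℕ) ≠ 0 by norm_num) (2 * N * (2 * H + 1))
      omega
    omega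
  have hcard : (univ : Finset (Fin N → ZMod Q)).card = Q ^ N := by simp
  have hQN : Q ^ N = Q ^ (N - 1) * Q := by rw [← pow_succ, Nat.sub_add_cancel hN]
  have hb1 : 8 * bad1.card ≤ 3 * Q ^ N := by
    have hc : bad1.card ≤ D.card * ((2 * (Q / S) + 1) * Q ^ (N - 1)) := by
      refine card_biUnion_le_card_mul _ _ _ fun h _ => ?_
      split_ifs with h0
      · simp
      · exact (card_linear_le _ h0 _).trans (Nat.mul_le_mul_right _ (card_nrm_le _))
    have hd : S * (2 * (Q / S) + 1) ≤ 3 * Q := by
      have := Nat.mul_div_le Q S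
      rw [Nat.mul_add, Nat.mul_left_comm]
      omega
    have hDS : 8 * D.card ≤ S := by
      refine le_trans (Nat.mul_le_mul_left 8 (hDc.trans (Nat.pow_le_pow_left ?_ 16))) h1
      exact Nat.mul_le_mul_right _ (by omega)
    calc 8 * bad1.card ≤ 8 * (D.card * ((2 * (Q / S) + 1) * Q ^ (N - 1))) :=
          Nat.mul_le_mul_left 8 hc
      _ = 8 * D.card * ((2 * (Q / S) + 1) * Q ^ (N - 1)) := by ring
      _ ≤ S * ((2 * (Q / S) + 1) * Q ^ (N - 1)) := Nat.mul_le_mul_right _ hDS
      _ = S * (2 * (Q / S) + 1) * Q ^ (N - 1) := by ring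
      _ ≤ 3 * Q * Q ^ (N - 1) := Nat.mul_le_mul_right _ hd
      _ = 3 * Q ^ N := by rw [hQN]; ring
  have hb2 : 8 * bad2.card ≤ Q ^ N := by
    by_cases hkN : k ≤ N
    swap
    · have : (univ : Finset (Fin N)).powersetCard k = ∅ := powersetCard_eq_empty.2 (by simpa using hkN)
      have he : bad2 = ∅ := by
        rw [eq_empty_iff_forall_notMem]
        simp [bad2, this]
      simp [he]
    have hc : bad2.card ≤ E * E * (2 ^ 13 * 2 ^ N) * ((4 * r + 1) ^ k * Q ^ (N - k)) := by
      refine (card_biUnion_le_card_mul _ _ ((4 * r + 1) ^ k * Q ^ (N - k)) fun w hw => ?_).trans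
        (Nat.mul_le_mul_right _ ?_)
      · simp only [mem_product, mem_filter, mem_range, mem_powersetCard] at hw
        obtain ⟨⟨⟨he, he'⟩, hne⟩, -, -, hs⟩ := hw
        have hd : (w.1.1 : ZMod Q) - (w.1.2 : ZMod Q) ≠ 0 := by
          rw [sub_ne_zero]
          intro e
          have h3 := congrArg ZMod.val e
          rw [ZMod.val_cast_of_lt (he.trans_le hQ.2.2), ZMod.val_cast_of_lt (he'.trans_le hQ.2.2)] at h3
          exact hne h3
        refine (card_pi_ite w.2.2 _ (4 * r + 1) fun i _ => ?_).trans (le_of_eq (by rw [hs]))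
        refine (card_le_card_of_injOn (fun x => ((w.2.1 * r : ℕ) : ZMod Q) +
          ((w.1.1 : ZMod Q) - (w.1.2 : ZMod Q)) * x) ?_ ?_).trans
            ((card_nrm_le (2 * r)).trans (by omega))
        · intro x hx
          simpa using hx
        · intro x _ y _ e
          exact mul_left_cancel₀ hd (add_left_cancel e)
      · rw [card_product, card_product, card_range]
        refine Nat.mul_le_mul ((card_filter_le _ _).trans (by simp))
          (Nat.mul_le_mul_left _ ?_)
        rw [card_powersetCard, card_univ, Fintype.card_fin]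
        exact Nat.choose_le_two_pow _ _
    have hr4 : (4 * r + 1) * 2 ^ 10 ≤ Q := by
      have h3 := Nat.div_mul_le_self Q (2 ^ 13)
      have h4 := hQ.1
      rw [hr]
      generalize Q / 2 ^ 13 = x at h3 ⊢
      norm_num at h3 h4 ⊢
      linarith
    have h2' : 8 * (E * E * (2 ^ 13 * 2 ^ N)) ≤ (2 ^ 10) ^ k := by
      rw [← pow_mul]
      calc 8 * (E * E * (2 ^ 13 * 2 ^ N)) = 2 ^ 16 * E ^ 2 * 2 ^ N := by ring
        _ ≤ 2 ^ (10 * k) := h2.trans (Nat.pow_le_pow_right (by norm_num) (by omega))
    calc 8 * bad2.card ≤ 8 * (E * E * (2 ^ 13 * 2 ^ N) * ((4 * r + 1) ^ k * Q ^ (N - k))) :=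
          Nat.mul_le_mul_left 8 hc
      _ = 8 * (E * E * (2 ^ 13 * 2 ^ N)) * ((4 * r + 1) ^ k * Q ^ (N - k)) := by ring
      _ ≤ (2 ^ 10) ^ k * ((4 * r + 1) ^ k * Q ^ (N - k)) := Nat.mul_le_mul_right _ h2'
      _ = ((4 * r + 1) * 2 ^ 10) ^ k * Q ^ (N - k) := by rw [mul_pow]; ring
      _ ≤ Q ^ k * Q ^ (N - k) := Nat.mul_le_mul_right _ (Nat.pow_le_pow_left hr4 k)
      _ = Q ^ N := by rw [← pow_add, Nat.add_sub_cancel' hkN]
  obtain ⟨a, -, ha⟩ := exists_mem_notMem_of_card_lt_card
    (show (bad1 ∪ bad2).card < (univ : Finset (Fin N → ZMod Q)).card by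
      rw [hcard]
      have := card_union_le bad1 bad2
      have : 0 < Q ^ N := by positivity
      omega)
  rw [mem_union, not_or] at ha
  refine ⟨a, fun h h0 hb hH => ?_, fun T e e' he he' hee => ?_⟩
  · by_contra hle
    have hz : (fun i => (h i : ZMod Q)) ≠ 0 := by
      intro hz
      apply h0
      funext i
      have hi := (ZMod.intCast_zmod_eq_zero_iff_dvd (h i) Q).1 (congrFun hz i)
      exact Int.eq_zero_of_dvd_of_natAbs_lt_natAbs hi (by simpa using lt_of_le_of_lt (hH i) hHQ)
    refine ha.1 (mem_biUnion.2 ⟨h, hD h h0 hb hH, ?_⟩)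
    rw [if_neg hz]
    simp only [mem_filter, mem_univ, true_and]
    rw [Nat.le_div_iff_mul_le hS0, mul_comm]
    omega
  · by_contra hlt
    set near := univ.filter fun i => nrm (T + ((e : ZMod Q) - (e' : ZMod Q)) * a i) ≤ r
    obtain ⟨s, hs, hsk⟩ := exists_subset_card_eq (show k ≤ near.card by omega)
    have hu : T.val / r < 2 ^ 13 := by
      rw [Nat.div_lt_iff_lt_mul (by omega), hr]
      have := Nat.lt_div_mul_add (a := Q) (show 0 < 2 ^ 13 by norm_num)
      have := T.val_lt
      omega
    refine ha.2 (mem_biUnion.2 ⟨((e, e'), (T.val / r, s)), ?_, ?_⟩)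
    · simp [he, he', hee, hsk]
      omega
    · rw [Fintype.mem_piFinset]
      intro i
      split_ifs with hi
      swap
      · exact mem_univ _
      have h3 : nrm (T + ((e : ZMod Q) - (e' : ZMod Q)) * a i) ≤ r := by
        simpa [near] using hs hi
      have h4 : nrm (-(((T.val % r : ℕ) : ℤ) : ZMod Q)) ≤ r := by
        rw [nrm_neg]
        exact (nrm_intCast_le _).trans
          ((Int.natAbs_natCast _).trans_le (Nat.mod_lt T.val (by omega : 0 < r)).le)
      have eT : ((T.val / r * r : ℕ) : ZMod Q) = T - ((T.val % r : ℕ) : ZMod Q) := by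
        rw [eq_sub_iff_add_eq, ← Nat.cast_add, Nat.div_add_mod', ZMod.natCast_zmod_val]
      simp only [mem_filter, mem_univ, true_and]
      calc _ = nrm ((T + ((e : ZMod Q) - (e' : ZMod Q)) * a i) +
            -(((T.val % r : ℕ) : ℤ) : ZMod Q)) := by
            congr 1
            rw [eT, Int.cast_natCast]
            ring
        _ ≤ r + r := (nrm_add_le _ _).trans (add_le_add h3 h4)
        _ = 2 * r := by omega

lemma sum_cons_split {l : ℕ} {β : Type*} [AddCommMonoid β] (f : J N (l + 1) → β) :
    ∑ j, f j = ∑ i, ∑ j : J N l, f (Fin.cons i j) := by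
  rw [← (Fin.consEquiv fun _ => Fin N).sum_comp, Fintype.sum_prod_type]
  rfl

lemma key_int [NeZero N] {H S E r : ℕ} {a : Fin N → ZMod Q} (hd : Design 16 H S E r a) :
    ∀ (l : ℕ) (z : J N l → ℤ), ∑ j, z j ≠ 0 → ∑ j, (z j).natAbs ≤ H →
      (∀ g ∈ gens a l, ¬ Q < S * nrm (∑ j, (z j : ZMod Q) * g j)) →
        16 ^ l ≤ (univ.filter fun j => z j ≠ 0).card := by
  intro l
  induction l with
  | zero =>
    intro z hz _ _
    obtain ⟨j, -, hj⟩ := exists_ne_zero_of_sum_ne_zero hz
    exact card_pos.2 ⟨j, mem_filter.2 ⟨mem_univ _, hj⟩⟩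
  | succ l ih =>
    intro z hz hH hg
    set h : Fin N → ℤ := fun i => ∑ j, z (Fin.cons i j)
    rw [sum_cons_split] at hz hH
    have hh : h ≠ 0 := fun e => hz (sum_eq_zero fun i _ => congrFun e i)
    have hHi : ∀ i, ∑ j, (z (Fin.cons i j)).natAbs ≤ H := fun i =>
      le_trans (single_le_sum (f := fun i => ∑ j, (z (Fin.cons i j)).natAbs)
        (fun _ _ => Nat.zero_le _) (mem_univ i)) hH
    have htop : ¬ (univ.filter fun i => h i ≠ 0).card ≤ 16 := fun hb => by
      refine hg (fun j => a (j 0)) (by simp [gens]) ?_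
      have e : ∑ j, (z j : ZMod Q) * a (j 0) = ∑ i, (h i : ZMod Q) * a i := by
        rw [sum_cons_split]
        simp [h, sum_mul]
      rw [e]
      exact hd.sparse h hh hb fun i => (Int.natAbs_sum_le _ _).trans (hHi i)
    have hchild : ∀ i, h i ≠ 0 → 16 ^ l ≤ (univ.filter fun j => z (Fin.cons i j) ≠ 0).card := by
      intro i hi
      refine ih _ hi (hHi i) fun g hgm hlt => ?_
      refine hg (fun j => if j 0 = i then g (Fin.tail j) else 0)
        (List.mem_cons_of_mem _ (List.mem_flatMap.2
          ⟨i, List.mem_finRange i, List.mem_map.2 ⟨g, hgm, rfl⟩⟩)) ?_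
      have e : ∑ j, (z j : ZMod Q) * (if j 0 = i then g (Fin.tail j) else 0) =
          ∑ j, (z (Fin.cons i j) : ZMod Q) * g j := by
        rw [sum_cons_split, sum_eq_single i]
        · simp
        · intro i' _ hi'
          simp [hi']
        · simp
      rwa [e]
    calc 16 ^ (l + 1) = 16 * 16 ^ l := pow_succ' 16 l
      _ ≤ (univ.filter fun i => h i ≠ 0).card * 16 ^ l := Nat.mul_le_mul_right _ (by omega)
      _ = ∑ _i ∈ univ.filter (fun i => h i ≠ 0), 16 ^ l := by simp
      _ ≤ ∑ i ∈ univ.filter (fun i => h i ≠ 0), (univ.filter fun j => z (Fin.cons i j) ≠ 0).card :=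
          sum_le_sum fun i hi => hchild i (by simpa using hi)
      _ ≤ ∑ i, (univ.filter fun j => z (Fin.cons i j) ≠ 0).card :=
          sum_le_sum_of_subset (filter_subset _ _)
      _ = (univ.filter fun j => z j ≠ 0).card := by
          simp only [card_filter]
          rw [sum_cons_split]

lemma key [NeZero N] [NeZero Q] {l H S E r P K : ℕ} {a : Fin N → ZMod Q}
    (hd : Design 16 H S E r a) (hP : P ≤ 16 ^ l) (hH : P * K ≤ H) (kk : J N l → ZMod Q)
    (hkk : (∑ j, kk j) ≠ 0) :
    P ≤ (univ.filter fun j => kk j ≠ 0).card ∨ (∃ j, K < nrm (kk j)) ∨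
      ∃ g ∈ gens a l, Q < S * nrm (∑ j, kk j * g j) := by
  by_contra hne
  simp only [not_or, not_exists, not_le, not_and, not_lt] at hne
  obtain ⟨hs, hK, hg⟩ := hne
  have hsup : (univ.filter fun j => (kk j).valMinAbs ≠ 0) = univ.filter fun j => kk j ≠ 0 := by
    ext j; simp [ZMod.valMinAbs_eq_zero]
  have hk := key_int hd l (fun j => (kk j).valMinAbs) ?_ ?_ fun g hgm => by
    simpa [ZMod.coe_valMinAbs] using hg g hgm
  · rw [hsup] at hk
    omega
  · intro e
    apply hkk
    simpa [ZMod.coe_valMinAbs] using congrArg (fun x : ℤ => (x : ZMod Q)) e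
  · calc ∑ j, ((kk j).valMinAbs).natAbs
        = ∑ j ∈ univ.filter (fun j => kk j ≠ 0), ((kk j).valMinAbs).natAbs := by
          refine (sum_subset (filter_subset _ _) fun j _ hj => ?_).symm
          simp only [mem_filter, mem_univ, true_and, not_not] at hj
          simp [hj]
      _ ≤ (univ.filter fun j => kk j ≠ 0).card * K := by
          rw [← smul_eq_mul]
          exact sum_le_card_nsmul _ _ _ fun j _ => hK j
      _ ≤ P * K := Nat.mul_le_mul_right _ hs.le
      _ ≤ H := hH

lemma nrm_le_of_bin_eq [NeZero Q] {q : ℕ} [NeZero q] {v w : ZMod Q} (h : bin q v = bin q w) :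
    nrm (v - w) ≤ Q / q := by
  have h' : v.val * q / Q = w.val * q / Q := congrArg Fin.val h
  have hQ := NeZero.pos Q
  have h1 := Nat.div_add_mod (v.val * q) Q
  have h2 := Nat.div_add_mod (w.val * q) Q
  have h3 := Nat.mod_lt (v.val * q) hQ
  have h4 := Nat.mod_lt (w.val * q) hQ
  rw [h'] at h1
  have e : v - w = (((v.val : ℤ) - (w.val : ℤ) : ℤ) : ZMod Q) := by simp
  rw [e]
  refine (nrm_intCast_le _).trans ?_
  rw [Nat.le_div_iff_mul_le (NeZero.pos q)]
  rcases le_total v.val w.val with hvw | hvw
  · rw [show ((v.val : ℤ) - (w.val : ℤ)).natAbs = w.val - v.val by omega, Nat.sub_mul]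
    omega
  · rw [show ((v.val : ℤ) - (w.val : ℤ)).natAbs = v.val - w.val by omega, Nat.sub_mul]
    omega

section Matching

variable [NeZero N] [NeZero Q] {q : ℕ} [NeZero q] {E l : ℕ}

lemma symb_child (a : Fin N → ZMod Q) (φ : J N (l + 1) → ZMod Q) (p : ℕ) (i : Fin N) (e : ℕ)
    (hp : p / nSlots N E l = e * N + (i : ℕ)) :
    symb q E a (l + 1) φ p =
      ((Fin.cons i (symb q E a l (fun j => φ (Fin.cons i j) + (e : ZMod Q) * a i)
          (p % nSlots N E l)).1 : J N (l + 1)),
        (symb q E a l (fun j => φ (Fin.cons i j) + (e : ZMod Q) * a i)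
          (p % nSlots N E l)).2) := by
  have hi : (⟨p / nSlots N E l % N, Nat.mod_lt _ (NeZero.pos N)⟩ : Fin N) = i := Fin.ext (by
    simp [hp, Nat.mod_eq_of_lt i.isLt])
  have he : p / (N * nSlots N E l) = e := by
    rw [mul_comm, ← Nat.div_div_eq_div_mul, hp, mul_comm e N,
      Nat.mul_add_div (NeZero.pos N), Nat.div_eq_of_lt i.isLt, add_zero]
  simp only [symb, slot, hi, he]

/-- In a matching of two translated copies, the matched share is at most `1 - 4^(-l)`. -/
lemma match_bound {b H S r : ℕ} {a : Fin N → ZMod Q} (hN : 4 ≤ N) (hE : 0 < E)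
    (hd : Design b H S E r a) (hq : r = Q / q + 1) (φ ψ : J N l → ZMod Q) (T : ZMod Q)
    (hT : r < nrm T) (hψ : ∀ j, ψ j = φ j + T) (M : Finset (ℕ × ℕ))
    (hM : IsMatching (nSlots N E l) (symb q E a l ψ) (symb q E a l φ) M) :
    nSlots N E l + 4 ^ l * M.card ≤ 4 ^ l * nSlots N E l := by
  induction l generalizing T M with
  | zero =>
    have : M = ∅ := by
      rw [eq_empty_iff_forall_notMem]
      intro z hz
      obtain ⟨-, -, h⟩ := hM.1 z hz
      have h' := nrm_le_of_bin_eq (congrArg Prod.snd h : bin q _ = bin q _)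
      simp only [slot] at h'
      rw [hψ, add_sub_cancel_left] at h'
      omega
    simp [this, nSlots]
  | succ l ih =>
    classical
    set c := nSlots N E l with hc
    have hc0 : 0 < c := pow_pos (Nat.mul_pos hE (NeZero.pos N)) l
    have hn : nSlots N E (l + 1) = E * (N * c) := by rw [hc, nSlots, nSlots, pow_succ]; ring
    rw [hn] at hM ⊢
    set A := N * c with hA
    have hA0 : 0 < A := Nat.mul_pos (NeZero.pos N) hc0
    have hrep : ∀ p, p / A = p / c / N := fun p => by
      rw [Nat.div_div_eq_div_mul, mul_comm c N]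
    set Me : ℕ → Finset (ℕ × ℕ) := fun e => M.filter fun z => z.1 / A = e with hMe
    have hsplit : M.card = ∑ e ∈ range E, (Me e).card :=
      card_eq_sum_card_fiberwise fun z hz => by
        have hz' := (hM.1 z hz).1
        simp only [mem_coe, mem_range]
        rw [Nat.div_lt_iff_lt_mul hA0]
        exact hz'
    have hinj : ∀ z ∈ M, ∀ w ∈ M, z.1 = w.1 → z = w := fun z hz w hw e => by
      have h1 := hM.2 z hz w hw
      have h2 := hM.2 w hw z hz
      exact Prod.ext e (by omega)
    have hchild : ∀ z ∈ M, z.1 / c % N = z.2 / c % N := fun z hz => by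
      have h := congrArg (fun x : J N (l + 1) × Fin q => ((x.1 0 : Fin N) : ℕ)) (hM.1 z hz).2.2
      simpa [symb, slot, hc] using h
    have hle : ∀ e, (Me e).card ≤ A := fun e => by
      refine (card_le_card_of_injOn (t := Ico (e * A) ((e + 1) * A)) Prod.fst ?_ ?_).trans
        (by simp [add_mul])
      · intro z hz
        simp only [hMe, coe_filter, Set.mem_ofPred_eq] at hz
        simp only [coe_Ico, Set.mem_Ico, ← hz.2]
        exact ⟨Nat.div_mul_le_self _ _, Nat.lt_mul_div_succ _ hA0 |>.trans_eq (mul_comm _ _)⟩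
      · intro z hz w hw
        simp only [hMe, coe_filter, Set.mem_ofPred_eq] at hz hw
        exact hinj z hz.1 w hw.1
    set multi : ℕ → Prop := fun e => ∃ z ∈ Me e, ∃ w ∈ Me e, z.1 < w.1 ∧ z.2 / A ≠ w.2 / A
    -- a repetition matched to a single one
    have hsingle : ∀ e < E, ¬ multi e → 4 ^ (l + 1) * (Me e).card + 3 * A ≤ 4 ^ (l + 1) * A := by
      intro e he hm
      obtain ⟨e0, he0, hall⟩ : ∃ e0 < E, ∀ z ∈ Me e, z.2 / A = e0 := by
        rcases (Me e).eq_empty_or_nonempty with h0 | ⟨z, hz⟩
        · exact ⟨e, he, by simp [h0]⟩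
        refine ⟨z.2 / A, (Nat.div_lt_iff_lt_mul hA0).2 (hM.1 z (mem_filter.1 hz).1).2.1,
          fun w hw => ?_⟩
        by_contra hne
        rcases lt_trichotomy z.1 w.1 with h | h | h
        · exact hm ⟨z, hz, w, hw, h, Ne.symm hne⟩
        · exact hne (by rw [hinj z (mem_filter.1 hz).1 w (mem_filter.1 hw).1 h])
        · exact hm ⟨w, hw, z, hz, h, hne⟩
      set far : Finset (Fin N) :=
        univ.filter fun i => r < nrm (T + ((e : ZMod Q) - (e0 : ZMod Q)) * a i)
      have hfar : 3 * N ≤ 4 * far.card := by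
        by_cases hee : e = e0
        · have : far = univ := by simp [far, hee, hT, Finset.filter_true_of_mem]
          simp [this]
          omega
        · have h1 := hd.spread T e e0 he he0 hee
          have h2 := card_filter_add_card_filter_not (s := (univ : Finset (Fin N)))
            (fun i => nrm (T + ((e : ZMod Q) - (e0 : ZMod Q)) * a i) ≤ r)
          simp only [not_le, card_univ, Fintype.card_fin] at h2
          simp only [far]
          omega
      have hi : ∀ i : Fin N, 4 ^ l * ((Me e).filter fun z => z.1 / c % N = (i : ℕ)).card +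
          (if i ∈ far then c else 0) ≤ 4 ^ l * c := by
        intro i
        set Mi := (Me e).filter fun z => z.1 / c % N = (i : ℕ) with hMi
        have hdec : ∀ z ∈ Mi, z ∈ M ∧ z.1 / c = e * N + (i : ℕ) ∧ z.2 / c = e0 * N + (i : ℕ) := by
          intro z hz
          obtain ⟨hz', hzi⟩ := mem_filter.1 hz
          obtain ⟨hzM, hze⟩ := mem_filter.1 hz'
          have h0 := hall z hz'
          rw [hrep] at hze h0
          refine ⟨hzM, ?_, ?_⟩
          · rw [← Nat.div_add_mod' (z.1 / c) N, hze, hzi]
          · rw [← Nat.div_add_mod' (z.2 / c) N, h0, ← hchild z hzM, hzi]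
        have hmono : ∀ x y, x / c = y / c → (x % c < y % c ↔ x < y) := fun x y hxy => by
          have := Nat.div_add_mod x c
          have := Nat.div_add_mod y c
          rw [hxy] at *
          omega
        set M' := Mi.image fun z => (z.1 % c, z.2 % c)
        have hcard : M'.card = Mi.card := card_image_of_injOn fun z hz w hw h => by
          obtain ⟨hzM, hz1, -⟩ := hdec z hz
          obtain ⟨hwM, hw1, -⟩ := hdec w hw
          refine hinj z hzM w hwM ?_
          have := Nat.div_add_mod z.1 c
          have := Nat.div_add_mod w.1 c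
          rw [hz1] at *
          rw [hw1] at *
          have := congrArg Prod.fst h
          omega
        split_ifs with hif
        · rw [add_comm, ← hcard]
          refine ih (fun j => φ (Fin.cons i j) + (e0 : ZMod Q) * a i)
            (fun j => ψ (Fin.cons i j) + (e : ZMod Q) * a i) _ (mem_filter.1 hif).2
            (fun j => by simp only [hψ]; ring) M' ⟨?_, ?_⟩
          · simp only [M', forall_mem_image]
            intro z hz
            obtain ⟨hzM, hz1, hz2⟩ := hdec z hz
            refine ⟨Nat.mod_lt _ hc0, Nat.mod_lt _ hc0, ?_⟩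
            have h := (hM.1 z hzM).2.2
            rw [symb_child a ψ z.1 i e hz1, symb_child a φ z.2 i e0 hz2, Prod.mk.injEq,
              Fin.cons_inj] at h
            exact Prod.ext h.1.2 h.2
          · simp only [M', forall_mem_image]
            intro z hz w hw
            obtain ⟨hzM, hz1, hz2⟩ := hdec z hz
            obtain ⟨hwM, hw1, hw2⟩ := hdec w hw
            rw [hmono _ _ (hz1.trans hw1.symm), hmono _ _ (hz2.trans hw2.symm)]
            exact hM.2 z hzM w hwM
        · rw [add_zero, ← hcard]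
          refine Nat.mul_le_mul_left _ ((card_le_card_of_injOn (t := range c) Prod.fst ?_ ?_).trans
            (card_range c).le)
          · intro x hx
            obtain ⟨z, -, rfl⟩ := mem_image.1 hx
            simpa using Nat.mod_lt _ hc0
          · intro x hx y hy h
            obtain ⟨z, hz, rfl⟩ := mem_image.1 hx
            obtain ⟨w, hw, rfl⟩ := mem_image.1 hy
            obtain ⟨hzM, hz1, -⟩ := hdec z hz
            obtain ⟨hwM, hw1, -⟩ := hdec w hw
            have hzw : z.1 = w.1 := by
              rw [← Nat.div_add_mod z.1 c, ← Nat.div_add_mod w.1 c, hz1, hw1]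
              simpa using h
            rw [hinj z hzM w hwM hzw]
      have hsum := sum_le_sum (s := (univ : Finset (Fin N))) fun i _ => hi i
      rw [sum_add_distrib, ← mul_sum, sum_ite_mem, univ_inter, sum_const, smul_eq_mul, sum_const,
        card_univ, Fintype.card_fin, smul_eq_mul] at hsum
      have hMsum : (Me e).card =
          ∑ i : Fin N, ((Me e).filter fun z => z.1 / c % N = (i : ℕ)).card := by
        rw [card_eq_sum_card_fiberwise (t := (univ : Finset (Fin N)))
          (f := fun z => (⟨z.1 / c % N, Nat.mod_lt _ (NeZero.pos N)⟩ : Fin N))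
          fun _ _ => mem_coe.2 (mem_univ _)]
        simp [Fin.ext_iff]
      rw [← hMsum] at hsum
      have : 3 * A ≤ 4 * (far.card * c) := by rw [hA]; nlinarith
      rw [pow_succ', hA] at *
      linarith
    -- the gaps left by repetitions matched to several
    have hgap : ∀ e, multi e → ∃ z ∈ Me e, ∃ w ∈ Me e, z.1 < w.1 ∧
        (∀ y ∈ M, ¬ (z.1 < y.1 ∧ y.1 < w.1)) ∧ A - c ≤ (Ioo z.2 w.2).card := by
      intro e hm
      have hP : ((Me e ×ˢ Me e).filter fun x => x.1.1 < x.2.1 ∧ x.1.2 / A ≠ x.2.2 / A).Nonempty := by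
        obtain ⟨z, hz, w, hw, h⟩ := hm
        exact ⟨(z, w), by simp [hz, hw, h]⟩
      obtain ⟨⟨z, w⟩, hx, hmin⟩ := exists_min_image _ (fun x => x.2.1 - x.1.1) hP
      simp only [mem_filter, mem_product] at hx hmin
      obtain ⟨⟨hz, hw⟩, hlt, hne⟩ := hx
      obtain ⟨hzM, hze⟩ := mem_filter.1 hz
      obtain ⟨hwM, hwe⟩ := mem_filter.1 hw
      refine ⟨z, hz, w, hw, hlt, fun y hy hyzw => ?_, ?_⟩
      · have hye : y ∈ Me e := mem_filter.2 ⟨hy, le_antisymm
          ((Nat.div_le_div_right hyzw.2.le).trans_eq hwe)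
          (hze.symm.trans_le (Nat.div_le_div_right hyzw.1.le))⟩
        by_cases hzy : z.2 / A = y.2 / A
        · have h : w.1 - z.1 ≤ w.1 - y.1 := hmin (y, w) ⟨⟨hye, hw⟩, hyzw.2, hzy ▸ hne⟩
          omega
        · have h : w.1 - z.1 ≤ y.1 - z.1 := hmin (z, y) ⟨⟨hz, hye⟩, hyzw.1, hzy⟩
          omega
      · rw [Nat.card_Ioo]
        have hlt2 : z.2 < w.2 := (hM.2 z hzM w hwM).1 hlt
        have hdd : z.2 / c / N < w.2 / c / N := by
          rw [← hrep, ← hrep]
          exact lt_of_le_of_ne (Nat.div_le_div_right hlt2.le) hne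
        have hii : z.2 / c % N ≤ w.2 / c % N := by
          rw [← hchild z hzM, ← hchild w hwM]
          have h1 := Nat.div_add_mod (z.1 / c) N
          have h2 := Nat.div_add_mod (w.1 / c) N
          have h3 := Nat.div_le_div_right (c := c) hlt.le
          have h4 : z.1 / c / N = w.1 / c / N := by rw [← hrep, ← hrep, hze, hwe]
          rw [h4] at h1
          omega
        have hblock : z.2 / c + N ≤ w.2 / c := by
          have h1 := Nat.div_add_mod (z.2 / c) N
          have h2 := Nat.div_add_mod (w.2 / c) N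
          have h3 : N * (z.2 / c / N + 1) ≤ N * (w.2 / c / N) := Nat.mul_le_mul_left N hdd
          rw [mul_add, mul_one] at h3
          omega
        have h5 : c * (z.2 / c + N) ≤ c * (w.2 / c) := Nat.mul_le_mul_left c hblock
        have h6 := Nat.mul_div_le w.2 c
        have h7 := Nat.lt_mul_div_succ z.2 hc0
        rw [mul_add, mul_comm c N, ← hA] at h5
        rw [mul_add, mul_one] at h7
        omega
    choose zf hzf wf hwf hlf hnf hcf using hgap
    set single := (range E).filter fun e => ¬ multi e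
    set mult := (range E).filter fun e => multi e
    have hcnt : mult.card + single.card = E :=
      (card_filter_add_card_filter_not _).trans (card_range E)
    have h1 : 4 ^ (l + 1) * M.card + 3 * A * single.card ≤ 4 ^ (l + 1) * (E * A) := by
      have hs : ∑ e ∈ range E, (4 ^ (l + 1) * (Me e).card + if ¬ multi e then 3 * A else 0) ≤
          ∑ _e ∈ range E, 4 ^ (l + 1) * A := sum_le_sum fun e he => by
        split_ifs with h
        · exact (Nat.add_zero _).trans_le (Nat.mul_le_mul_left _ (hle e))
        · exact hsingle e (mem_range.1 he) h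
      rw [sum_add_distrib, ← mul_sum, ← hsplit, ← sum_filter, sum_const, sum_const, card_range,
        smul_eq_mul, smul_eq_mul] at hs
      linarith
    have h2 : M.card + mult.card * (A - c) ≤ E * A := by
      let G : mult → Finset ℕ := fun e =>
        Ioo (zf e.1 (mem_filter.1 e.2).2).2 (wf e.1 (mem_filter.1 e.2).2).2
      have hdisj : Disjoint (M.image Prod.snd) (univ.biUnion G) := by
        rw [disjoint_left]
        intro x hx hx'
        obtain ⟨y, hy, rfl⟩ := mem_image.1 hx
        obtain ⟨e, -, he⟩ := mem_biUnion.1 hx'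
        have hm := (mem_filter.1 e.2).2
        simp only [G, mem_Ioo] at he
        exact hnf e.1 hm y hy ⟨(hM.2 _ (mem_filter.1 (hzf e.1 hm)).1 y hy).2 he.1,
          (hM.2 y hy _ (mem_filter.1 (hwf e.1 hm)).1).2 he.2⟩
      have hG : mult.card * (A - c) ≤ (univ.biUnion G).card := by
        rw [card_biUnion]
        · calc mult.card * (A - c) = ∑ _e : mult, (A - c) := by simp
            _ ≤ _ := sum_le_sum fun e _ => hcf e.1 (mem_filter.1 e.2).2
        · have hord : ∀ e f : mult, e.1 < f.1 → Disjoint (G e) (G f) := fun e f hef => by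
            have hme := (mem_filter.1 e.2).2
            have hmf := (mem_filter.1 f.2).2
            obtain ⟨hwM, hwe⟩ := mem_filter.1 (hwf e.1 hme)
            obtain ⟨hzM, hze⟩ := mem_filter.1 (hzf f.1 hmf)
            have hlt : (wf e.1 hme).1 < (zf f.1 hmf).1 := by
              by_contra hcon
              have := Nat.div_le_div_right (c := A) (not_lt.1 hcon)
              omega
            have := (hM.2 _ hwM _ hzM).1 hlt
            rw [disjoint_left]
            intro x hx hx'
            simp only [G, mem_Ioo] at hx hx'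
            omega
          intro e _ f _ hef
          rcases lt_or_gt_of_ne (fun h => hef (Subtype.ext h) : e.1 ≠ f.1) with h | h
          exacts [hord e f h, (hord f e h).symm]
      have hsub : M.image Prod.snd ∪ univ.biUnion G ⊆ range (E * A) := by
        intro x hx
        rcases mem_union.1 hx with hx | hx
        · obtain ⟨y, hy, rfl⟩ := mem_image.1 hx
          exact mem_range.2 (hM.1 y hy).2.1
        · obtain ⟨e, -, he⟩ := mem_biUnion.1 hx
          simp only [G, mem_Ioo] at he
          exact mem_range.2 (he.2.trans (hM.1 _ (mem_filter.1 (hwf e.1 (mem_filter.1 e.2).2)).1).2.1)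
      have himg : (M.image Prod.snd).card = M.card := card_image_of_injOn fun z hz w hw h => by
        refine hinj z hz w hw ?_
        have h1 := hM.2 z hz w hw
        have h2 := hM.2 w hw z hz
        omega
      have := card_le_card hsub
      rw [card_union_of_disjoint hdisj, himg, card_range] at this
      omega
    have h4 : 3 * A ≤ 4 * (A - c) := by
      have : 4 * c ≤ N * c := Nat.mul_le_mul_right _ hN
      omega
    rcases le_total mult.card single.card with h | h
    · nlinarith
    · have h5 : 4 ^ (l + 1) * M.card + 4 * (mult.card * (A - c)) ≤ 4 ^ (l + 1) * (E * A) := by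
        have h6 := Nat.mul_le_mul_left (4 ^ (l + 1)) h2
        have h7 : 4 * (mult.card * (A - c)) ≤ 4 ^ (l + 1) * (mult.card * (A - c)) :=
          Nat.mul_le_mul_right _ (Nat.le_self_pow (by omega) 4)
        rw [mul_add] at h6
        omega
      nlinarith

end Matching

end Vale.Agent.P238
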