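import Vale.Agent.P238.Params
import Vale.Agent.P238.Analytic
import Vale.Agent.P238.Design

/-! The distortion bound at each level (P238). -/

namespace Vale.Agent.P238

open Finset

/-- The code facts needed at level `k`. -/
def CodePart (k : ℕ) : Prop :=
  ∀ (N : ℕ) (q : ℕ), Fintype.card (J N k × Fin q) ^ 4 * (2 ^ 16 * pd k ^ 2) ≤ 2 ^ (40 * pd k) →
    ∃ cd : J N k × Fin q → Fin (64 * pd k) → Bool, ∀ (n L : ℕ) (u v : ℕ → J N k × Fin q),
      (∀ p, p + 1 < n → u p ≠ u (p + 1)) →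
      (∀ M, IsMatching n u v M → n + L * M.card ≤ L * n) →
      ∀ z, n * (64 * pd k) ≤ 1024 * L * ED (code cd n u ++ z) (code cd n v ++ z)

theorem level_bound (k : ℕ) (hk : 25 ≤ k) (hcode : CodePart k) (n : ℕ) (hn : pn k ≤ n)
    (f : (Fin n → Bool) → lp (fun _ : ℕ => ℝ) 1) (A B : ℝ) (hA : 0 ≤ A) (hB : 0 ≤ B)
    (hf : ∀ x y, ‖f x - f y‖ ≤ A * wordED x y ∧ (wordED x y : ℝ) ≤ B * ‖f x - f y‖) :
    ((16 ^ k : ℕ) : ℝ) ≤ 8192 * 4 ^ k * (2 * k + 4) * (A * B) := by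
  have hk1 : 1 ≤ k := by omega
  set N := pN k with hN
  set E := pE k with hE
  set S := 2 ^ (640 * k) with hS
  set K := 2 ^ (4 * k + 15) with hK
  set H := 2 ^ (8 * k + 15) with hH
  haveI : NeZero N := ⟨by rw [hN, pN]; omega⟩
  obtain ⟨Q, hQbig, hQp⟩ := Nat.exists_infinite_primes (2 ^ (1284 * k + 20))
  haveI : Fact Q.Prime := ⟨hQp⟩
  have hQK : K ≤ Q := le_trans (Nat.pow_le_pow_right (by norm_num) (by omega)) hQbig
  have hQ16 : 2 ^ 16 ≤ Q := le_trans (Nat.pow_le_pow_right (by norm_num) (by omega)) hQbig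
  have hQS : S ≤ Q := le_trans (Nat.pow_le_pow_right (by norm_num) (by omega)) hQbig
  have hQE : E ≤ Q := by
    rw [hE, pE]
    exact le_trans (Nat.pow_le_pow_right (by norm_num) (by omega)) hQbig
  obtain ⟨a, hd⟩ := exists_design N H S E Q ⟨hQ16, hQS, hQE⟩ (h1_holds k hk1) (h2_holds k hk1)
  obtain ⟨cd, hcd⟩ := hcode N (2 ^ 13) (code_holds k hk1)
  have hE0 : 0 < E := Nat.two_pow_pos _
  have h16 : (16 : ℕ) ^ k = 2 ^ (4 * k) := by
    rw [pow_mul]
    norm_num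
  have hPK : 16 ^ k * K ≤ H := by
    rw [hK, hH, h16, ← pow_add]
    exact Nat.pow_le_pow_right (by norm_num) (by omega)
  have hK0 : 0 < K := Nat.two_pow_pos _
  have hR : Q ≤ (Q / K + 1) * K := (Nat.lt_div_mul_add hK0).le.trans_eq (by ring)
  have hRq : 2 ^ 13 * (Q / K + 1) * 16 ^ k ≤ Q := by
    have h1 : 2 * (2 ^ 13 * 16 ^ k) ≤ K := by
      rw [hK, h16, ← pow_add, ← pow_succ']
      exact Nat.pow_le_pow_right (by norm_num) (by omega)
    have h2 : Q / K + 1 ≤ 2 * (Q / K) := by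
      have := Nat.div_pos hQK hK0
      omega
    calc 2 ^ 13 * (Q / K + 1) * 16 ^ k ≤ 2 ^ 13 * (2 * (Q / K)) * 16 ^ k := by gcongr
      _ = 2 * (2 ^ 13 * 16 ^ k) * (Q / K) := by ring
      _ ≤ K * (Q / K) := Nat.mul_le_mul_right _ h1
      _ ≤ Q := Nat.mul_div_le Q K
  have hfar : 2 * (2 * (Q / 2 ^ 13 + 1) + 1) ≤ Q := by
    norm_num at hQ16 ⊢
    omega
  exact distortion_core k (pd k) E S K (16 ^ k) (Q / K + 1) (2 ^ 13) n a cd
    (by rw [pd]; positivity) (by rw [hN, pN]; omega) (pE_eq k) hE0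
    (by positivity) (Nat.succ_pos _) (Nat.two_pow_pos _) hRq hfar
    (fun g => poincare (gens a k) (16 ^ k) K (Q / K + 1) S (by positivity) hR
      (key hd le_rfl hPK) g)
    (fun u v hu hM z => by
      simpa [Nat.mul_assoc] using hcd _ (4 ^ k) u v hu hM z)
    (fun φ ψ T hT hψ M hM => match_bound (by rw [hN, pN]; omega) hE0 hd rfl φ ψ T hT hψ M hM)
    hn f A B hA hB hf

/-- The asymptotic lower bound, from the code part. -/
theorem main_of_code (hcode : ∀ k, 25 ≤ k → CodePart k) :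
    ∃ c : ℝ, 0 < c ∧ ∃ n0 : ℕ, ∀ n ≥ n0, ∀ (f : (Fin n → Bool) → lp (fun _ : ℕ => ℝ) 1)
      (A B : ℝ),
      (∀ x y, ‖f x - f y‖ ≤ A * wordED x y ∧ (wordED x y : ℝ) ≤ B * ‖f x - f y‖) →
      Real.exp (c * √(Real.log n)) ≤ A * B := by
  obtain ⟨c, hc, n0, h⟩ := asymptotic fun k hk n hn f A B hA hB hf =>
    level_bound k hk (hcode k hk) n hn f A B hA hB hf
  refine ⟨c, hc, max n0 1, fun n hn f A B hf => ?_⟩
  have hn1 : 1 ≤ n := le_of_max_le_right hn
  set x : Fin n → Bool := fun _ => false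
  set y : Fin n → Bool := fun _ => true
  have hpos : 0 < wordED x y := by
    refine Nat.pos_of_ne_zero fun h0 => ?_
    have hr : Reach 0 (List.ofFn x) (List.ofFn y) := h0 ▸ reach_ED (List.ofFn x) (List.ofFn y)
    have hxy : x = y := List.ofFn_injective hr
    exact Bool.noConfusion (congrFun hxy ⟨0, hn1⟩)
  have hp : (0 : ℝ) < wordED x y := Nat.cast_pos.2 hpos
  obtain ⟨hu, hl⟩ := hf x y
  have hnorm : 0 < ‖f x - f y‖ := by
    rcases (norm_nonneg (f x - f y)).lt_or_eq with h' | h'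
    · exact h'
    · rw [← h', mul_zero] at hl
      linarith
  exact h n (le_of_max_le_left hn) f A B
    (le_of_lt (pos_of_mul_pos_left (hnorm.trans_le hu) hp.le))
    (le_of_lt (pos_of_mul_pos_left (hp.trans_le hl) hnorm.le)) hf

end Vale.Agent.P238
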