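import Vale.Agent.P238.Assembly
import Mathlib.Analysis.Complex.ExponentialBounds

/-! Explicit parameters and the final asymptotic step (P238). -/

namespace Vale.Agent.P238

open Real

/-- Children per level. -/
def pN (k : ℕ) : ℕ := 4096 * k
/-- Repetitions per level. -/
def pE (k : ℕ) : ℕ := 2 ^ (1284 * k)
/-- Code parameter. -/
def pd (k : ℕ) : ℕ := 32 * k ^ 2
/-- Word length at level `k`. -/
def pn (k : ℕ) : ℕ := nSlots (pN k) (pE k) k * (64 * pd k)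

theorem le_two_pow (k : ℕ) : k ≤ 2 ^ k := Nat.le_of_lt Nat.lt_two_pow_self

theorem pE_eq (k : ℕ) : pE k = 16 ^ k * (2 ^ (640 * k)) ^ 2 := by
  rw [pE, show (16 : ℕ) = 2 ^ 4 by norm_num, ← pow_mul, ← pow_mul, ← pow_add]
  congr 1
  ring

theorem h1_holds (k : ℕ) (hk : 1 ≤ k) :
    8 * (2 * pN k * (2 * 2 ^ (8 * k + 15) + 1)) ^ 16 ≤ 2 ^ (640 * k) := by
  have h1 : 2 * pN k ≤ 2 ^ (k + 13) := by
    rw [pN, pow_add]
    have := le_two_pow k
    norm_num
    omega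
  have h2 : 2 * 2 ^ (8 * k + 15) + 1 ≤ 2 ^ (8 * k + 17) := by
    rw [pow_add, pow_add]
    have : 1 ≤ 2 ^ (8 * k) := Nat.one_le_two_pow
    norm_num
    omega
  calc 8 * (2 * pN k * (2 * 2 ^ (8 * k + 15) + 1)) ^ 16
      ≤ 2 ^ 3 * (2 ^ (k + 13) * 2 ^ (8 * k + 17)) ^ 16 :=
        Nat.mul_le_mul (le_of_eq (by norm_num)) (Nat.pow_le_pow_left (Nat.mul_le_mul h1 h2) 16)
    _ = 2 ^ (144 * k + 483) := by
        rw [← pow_add, ← pow_mul, ← pow_add]
        congr 1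
        ring
    _ ≤ 2 ^ (640 * k) := Nat.pow_le_pow_right (by norm_num) (by omega)

theorem h2_holds (k : ℕ) (hk : 1 ≤ k) :
    2 ^ 16 * pE k ^ 2 * 2 ^ pN k ≤ 2 ^ (8 * (pN k / 4)) := by
  rw [pE, pN, ← pow_mul, ← pow_add, ← pow_add]
  exact Nat.pow_le_pow_right (by norm_num) (by omega)

theorem code_holds (k : ℕ) (hk : 1 ≤ k) :
    Fintype.card (J (pN k) k × Fin (2 ^ 13)) ^ 4 * (2 ^ 16 * pd k ^ 2) ≤ 2 ^ (40 * pd k) := by
  have h1 : Fintype.card (J (pN k) k × Fin (2 ^ 13)) ≤ 2 ^ ((k + 12) * k + 13) := by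
    rw [Fintype.card_prod, Fintype.card_fun, Fintype.card_fin, Fintype.card_fin, Fintype.card_fin,
      pow_add _ ((k + 12) * k), pow_mul]
    gcongr
    rw [pN, pow_add]
    have := le_two_pow k
    norm_num
    omega
  have h2 : pd k ≤ 2 ^ (2 * k + 5) := by
    rw [pd, pow_add, Nat.mul_comm (2 ^ (2 * k)), Nat.mul_comm 2 k, pow_mul]
    norm_num
    gcongr
    exact le_two_pow k
  calc _ ≤ (2 ^ ((k + 12) * k + 13)) ^ 4 * (2 ^ 16 * (2 ^ (2 * k + 5)) ^ 2) := by gcongr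
    _ = 2 ^ (4 * ((k + 12) * k + 13) + (16 + 2 * (2 * k + 5))) := by
        rw [← pow_mul, ← pow_mul, ← pow_add, ← pow_add]
        congr 1
        ring
    _ ≤ 2 ^ (40 * pd k) := Nat.pow_le_pow_right (by norm_num) (by rw [pd]; nlinarith)

theorem pn_gt (k : ℕ) (hk : 1 ≤ k) : k < pn k := by
  have h1 : 1 ≤ nSlots (pN k) (pE k) k :=
    nSlots_pos (by rw [pN]; omega) (Nat.two_pow_pos _) k
  calc k < 64 * pd k := by rw [pd]; nlinarith
    _ ≤ pn k := Nat.le_mul_of_pos_left _ h1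

theorem pn_le (k : ℕ) (hk : 1 ≤ k) : pn k ≤ 2 ^ (1400 * k ^ 2) := by
  have h1 : pE k * pN k ≤ 2 ^ (1300 * k) := by
    rw [pE, pN]
    calc 2 ^ (1284 * k) * (4096 * k) ≤ 2 ^ (1284 * k) * (2 ^ 12 * 2 ^ k) := by
          gcongr
          · norm_num
          · exact le_two_pow k
      _ = 2 ^ (1284 * k + (12 + k)) := by rw [← pow_add, ← pow_add]
      _ ≤ _ := Nat.pow_le_pow_right (by norm_num) (by omega)
  have h2 : 64 * pd k ≤ 2 ^ (2 * k + 11) := by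
    rw [pd, pow_add, Nat.mul_comm (2 ^ (2 * k)), Nat.mul_comm 2 k, pow_mul, ← Nat.mul_assoc]
    norm_num
    gcongr
    exact le_two_pow k
  calc pn k ≤ (2 ^ (1300 * k)) ^ k * 2 ^ (2 * k + 11) := by
        rw [pn, nSlots]
        gcongr
    _ = 2 ^ (1300 * k * k + (2 * k + 11)) := by rw [← pow_mul, ← pow_add]
    _ ≤ _ := Nat.pow_le_pow_right (by norm_num) (by nlinarith)

theorem four_pow_ge : ∀ k : ℕ, 25 ≤ k → 8192 * (2 * k + 4) ≤ 2 ^ k := by
  intro k hk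
  induction k, hk using Nat.le_induction with
  | base => norm_num
  | succ k hk ih => rw [pow_succ]; omega

attribute [local irreducible] pn

/-- The bound at each level gives `exp (c √log n)`. -/
theorem asymptotic
    (core : ∀ k : ℕ, 25 ≤ k → ∀ n, pn k ≤ n → ∀ (f : (Fin n → Bool) → lp (fun _ : ℕ => ℝ) 1)
      (A B : ℝ), 0 ≤ A → 0 ≤ B →
      (∀ x y, ‖f x - f y‖ ≤ A * wordED x y ∧ (wordED x y : ℝ) ≤ B * ‖f x - f y‖) →
      ((16 ^ k : ℕ) : ℝ) ≤ 8192 * 4 ^ k * (2 * k + 4) * (A * B)) :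
    ∃ c : ℝ, 0 < c ∧ ∃ n0 : ℕ, ∀ n ≥ n0, ∀ (f : (Fin n → Bool) → lp (fun _ : ℕ => ℝ) 1)
      (A B : ℝ), 0 ≤ A → 0 ≤ B →
      (∀ x y, ‖f x - f y‖ ≤ A * wordED x y ∧ (wordED x y : ℝ) ≤ B * ‖f x - f y‖) →
      Real.exp (c * √(Real.log n)) ≤ A * B := by
  classical
  refine ⟨1 / 150, by norm_num, pn 25, fun n hn f A B hA hB hf => ?_⟩
  have h25 : 25 ≤ n := le_trans (le_of_lt (pn_gt 25 (by norm_num))) hn
  set k := Nat.findGreatest (fun k => pn k ≤ n) n with hk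
  have hk25 : 25 ≤ k := Nat.le_findGreatest h25 hn
  have hkn : pn k ≤ n := Nat.findGreatest_spec (P := fun k => pn k ≤ n) h25 hn
  have hklt : k < n := (pn_gt k (by omega)).trans_le hkn
  have hup : n < pn (k + 1) := by
    by_contra h
    exact Nat.findGreatest_is_greatest (P := fun k => pn k ≤ n) (Nat.lt_succ_self k)
      (by omega : k + 1 ≤ n) (not_lt.1 h)
  have h1 := core k hk25 n hkn f A B hA hB hf
  have hAB : (2 : ℝ) ^ k ≤ A * B := by
    have h2 : (8192 : ℝ) * (2 * k + 4) ≤ 2 ^ k := by exact_mod_cast four_pow_ge k hk25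
    have h3 : ((16 ^ k : ℕ) : ℝ) = 4 ^ k * 2 ^ k * 2 ^ k := by
      push_cast
      rw [← mul_pow, ← mul_pow]
      norm_num
    rw [h3] at h1
    have hAB0 : 0 ≤ A * B := mul_nonneg hA hB
    have h4 : (4 : ℝ) ^ k * 2 ^ k * 2 ^ k ≤ 4 ^ k * 2 ^ k * (A * B) := by
      calc _ ≤ 8192 * 4 ^ k * (2 * k + 4) * (A * B) := h1
        _ = 4 ^ k * (8192 * (2 * k + 4)) * (A * B) := by ring
        _ ≤ _ := by gcongr
    exact le_of_mul_le_mul_left h4 (by positivity)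
  refine le_trans ?_ hAB
  have hlog : Real.log n ≤ (75 * k : ℝ) ^ 2 := by
    have hn' : (n : ℝ) ≤ (2 : ℝ) ^ (1400 * (k + 1) ^ 2) := by
      have h := Nat.cast_le (α := ℝ).2 (le_trans (le_of_lt hup) (pn_le (k + 1) (by omega)))
      rwa [Nat.cast_pow, Nat.cast_ofNat] at h
    have h5 := Real.log_le_log (by exact_mod_cast (by omega : 0 < n)) hn'
    rw [Real.log_pow] at h5
    have h6 : Real.log 2 ≤ 1 := by linarith [Real.log_two_lt_d9]
    have hk' : (25 : ℝ) ≤ k := by exact_mod_cast hk25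
    push_cast at h5
    have h7 : 1400 * ((k : ℝ) + 1) ^ 2 * Real.log 2 ≤ 1400 * ((k : ℝ) + 1) ^ 2 :=
      mul_le_of_le_one_right (by positivity) h6
    nlinarith
  calc Real.exp (1 / 150 * √(Real.log n)) ≤ Real.exp (1 / 2 * k) := by
        refine Real.exp_le_exp.2 ?_
        calc 1 / 150 * √(Real.log n) ≤ 1 / 150 * (75 * k : ℝ) :=
              mul_le_mul_of_nonneg_left (Real.sqrt_le_iff.2 ⟨by positivity, hlog⟩) (by norm_num)
          _ = _ := by ring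
    _ ≤ Real.exp (Real.log 2 * k) := by
        refine Real.exp_le_exp.2 (mul_le_mul_of_nonneg_right ?_ (Nat.cast_nonneg _))
        linarith [Real.log_two_gt_d9]
    _ = (2 : ℝ) ^ k := by
        rw [Real.exp_mul, Real.exp_log (by norm_num : (0 : ℝ) < 2), Real.rpow_natCast]

end Vale.Agent.P238
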